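import Vale.Agent.P352X.R.IX

/-!
# P352L, block F: the transverse boundary of the third leg, for an abstract functional (helper72)
-/

set_option linter.all false

open MeasureTheory Filter Topology
open scoped SchwartzMap ComplexConjugate ENNReal ContDiff

namespace Vale.Agent.P352L.Fx

open Vale.Agent.P352 Vale.Agent.P352.GF Vale.Agent.P352.BW Vale.Agent.P352.H246
open Vale.Agent.P352.H496 Vale.Agent.P352.H755 Vale.Agent.P352.H15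
open Vale.Agent.P352X Vale.Agent.P352X.IXH
open Complex (I)
open CK.Near (Nb ex_Nb)

noncomputable section

variable (Λ : S3 →L[ℂ] ℂ)

/-- invariance under the translations and the null rotations that fix `a` -/
structure Inv : Prop where
  tra : ∀ (a : V) (F G : S3), (∀ x y z, G (x, y, z) = F (x + a, y + a, z + a)) → Λ F = Λ G
  rot : ∀ (w : R2) (F G : S3), (∀ x y z, G (x, y, z) = F (gap w x, gap w y, gap w z)) → Λ F = Λ G

/-- the functional with the middle leg smeared with `h` -/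
def X (Ψ : V × V → ℂ) (h : V → ℂ) : ℂ :=
  Λ (sch fun z : V × V × V => Ψ (z.1, z.2.2) * h z.2.1)

/-- far parts of the plane, with a rate -/
def FarB (p : ℕ) : Prop := ∃ κ : ℝ, 0 < κ ∧ ∃ m : ℕ, ∀ (g : P3 → ℝ) (r b : ℝ), Tst g →
  (0 : P3) ∉ tsupport g → ∃ C A : ℝ, 0 ≤ C ∧ 1 ≤ A ∧ ∀ L Ψ R, A ≤ L → Dc Ψ →
    tsupport Ψ ⊆ Metric.closedBall 0 r → Tst R → tsupport R ⊆ Set.Icc (-b) b →
      ‖(L : ℂ) ^ p * X Λ Ψ (pr (kL g L) R)‖ ≤ C * L ^ (-κ) * sn m (sch Ψ) * sn m (sch (cx R))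

/-- far parts of the plane -/
def Far0 (p : ℕ) : Prop := ∀ (g : P3 → ℝ) (R : ℝ → ℝ) (Ψ : V × V → ℂ), Tst g →
  (0 : P3) ∉ tsupport g → Tst R → Dc Ψ →
    Tendsto (fun L : ℝ => (L : ℂ) ^ p * X Λ Ψ (pr (kL g L) R)) atTop (𝓝 0)

/-- `(x2 - x1).(x2 - x3) (al1 - al3)^6` -/
def Ph (z1 z2 z3 : V) : ℝ := d2 (tx z2 - tx z1) (tx z2 - tx z3) * (al z1 - al z3) ^ 6

/-- the transverse boundary of the third leg -/
def IX : Prop := ∃ N : ℕ, ∀ (ρ1 κ : P3 → ℝ) (k θ ρ : ℝ → ℝ) (k' : R2 → ℝ), Tst ρ1 → Cut κ →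
  Tst k → Tst θ → Tst ρ → Tst k' → (∀ j ≤ N, ∫ t, t ^ j * k t = 0) →
  (∀ y ∈ tsupport ρ1, ∀ᶠ x in 𝓝 y.2, k' x = 1) → tsupport ρ ⊆ Set.Icc (-1) 1 →
  ∀ η > 0, ∀ᶠ ε in 𝓝[>] (0 : ℝ), ∀ δ ∈ Set.Ioc 0 ε, ∀ᶠ L in atTop,
    ‖Λ (sch fun z : V × V × V => ((Ph z.1 z.2.1 z.2.2 * ρ1 (pl z.1) * dlt δ ρ (be z.2.1) *
      (dil ε θ (be z.1) * dil ε θ (be z.2.2) * kL κ L (pl z.2.1) *
        dx (k3 k k') (pl z.2.2) (tx z.2.2 - tx z.1)) : ℝ) : ℂ))‖ ≤ η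

variable {Λ}

theorem FarB.far {p : ℕ} (h : FarB Λ p) : Far0 Λ p := fun g R Ψ h1 h0 h2 h3 => by
  obtain ⟨κ, hκ, m, h⟩ := h
  obtain ⟨r, hr⟩ := h3.2.isCompact.isBounded.subset_closedBall 0
  obtain ⟨b, hb⟩ := h2.2.isCompact.isBounded.subset_closedBall 0
  rw [Real.closedBall_eq_Icc, zero_sub, zero_add] at hb
  obtain ⟨C, A, -, -, h⟩ := h g r b h1 h0
  have := (((tendsto_rpow_neg_atTop hκ).const_mul C).mul_const (sn m (sch Ψ))).mul_const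
    (sn m (sch (cx R)))
  rw [mul_zero, zero_mul, zero_mul] at this
  exact squeeze_zero_norm' ((eventually_ge_atTop A).mono fun L hL => h L Ψ R hL h3 hr h2 hb) this

/-! ## infinitesimal invariance -/

theorem Inv.dtra (hΛ : Inv Λ) {F : V × V × V → ℂ} (hF : Dc F) (y : V) :
    Λ (sch fun z => fderiv ℝ F z (y, y, y)) = 0 := by
  have h1 : ∀ t : ℝ, Dc fun x => F ((1 : _ →L[ℝ] _) x + t • (y, y, y)) := fun t =>
    Api4.dc_add_const hF _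
  have := der0 Λ (g := fun _ => 1) (a := fun t => t • (y, y, y)) (g' := 0) (a' := (y, y, y))
    (hasDerivAt_const _ _) (by simpa using (hasDerivAt_id (0 : ℝ)).smul_const (y, y, y)) rfl
    (zero_smul _ _) hF h1 fun t => hΛ.tra (t • y) _ _ fun x y z => by
      rw [Api4.sch_apply (h1 t), Api4.sch_apply hF]
      rfl
  simp only [ContinuousLinearMap.zero_apply, zero_add] at this
  exact this

theorem Inv.drot (hΛ : Inv Λ) {F : V × V × V → ℂ} (hF : Dc F) (i : Fin 2) :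
    Λ (sch fun z => fderiv ℝ F z (mL i z.1, mL i z.2.1, mL i z.2.2)) = 0 := by
  set g : ℝ → V × V × V →L[ℝ] V × V × V :=
    fun t => 1 + t • tr3 (mL i) + t ^ 2 • tr3 (((1 / 2 : ℝ) • beL).smulRight va) with hg'
  have e : ∀ t z, g t z + 0 = (gap (t • e2 i) z.1, gap (t • e2 i) z.2.1, gap (t • e2 i) z.2.2) :=
    fun t z => by simp only [add_zero, gap_eq]; rfl
  have h1 : ∀ t : ℝ, Dc fun x => F (g t x + 0) := fun t => by
    have := Api4.dc_comp_cle hF (ContinuousLinearEquiv.equivOfInverse (tr3 (gapL (t • e2 i)))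
      (tr3 (gapL (-(t • e2 i)))) (fun z => by simp [tr3, gap_gap, Prod.map])
      fun z => by simp [tr3, gap_gap, Prod.map])
    simpa [e, tr3, Prod.map] using this
  have hd : HasDerivAt g (tr3 (mL i)) 0 := by
    have := ((hasDerivAt_const (0 : ℝ) (1 : V × V × V →L[ℝ] V × V × V)).add
      ((hasDerivAt_id (0 : ℝ)).smul_const (tr3 (mL i)))).add
      ((hasDerivAt_pow 2 (0 : ℝ)).smul_const (tr3 (((1 / 2 : ℝ) • beL).smulRight va)))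
    exact this.congr_deriv (by simp)
  have := der0 Λ (a := fun _ => 0) (a' := 0) hd (hasDerivAt_const _ _) (by simp [hg']) rfl
    hF h1 fun t => hΛ.rot (t • e2 i) _ _ fun x y z => by
      rw [Api4.sch_apply (h1 t), Api4.sch_apply hF, e]
  simp only [add_zero] at this
  exact this

/-! ## the bilinear form `X` -/

section bil

variable {Ψ Ψ' : V × V → ℂ} {h h' : V → ℂ}

theorem X_add_l (a : Dc Ψ) (a' : Dc Ψ') (b : Dc h) :
    X Λ (fun z => Ψ z + Ψ' z) h = X Λ Ψ h + X Λ Ψ' h := by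
  simp only [X, add_mul]
  rw [Api4.sch_add (Far.dc_tri a b) (Far.dc_tri a' b), map_add]

theorem X_add_r (a : Dc Ψ) (b : Dc h) (b' : Dc h') :
    X Λ Ψ (fun z => h z + h' z) = X Λ Ψ h + X Λ Ψ h' := by
  simp only [X, mul_add]
  rw [Api4.sch_add (Far.dc_tri a b) (Far.dc_tri a b'), map_add]

theorem X_mul_l (a : Dc Ψ) (b : Dc h) (s : ℂ) : X Λ (fun z => s * Ψ z) h = s * X Λ Ψ h := by
  simp only [X, mul_assoc]
  rw [Api4.sch_const_mul s (Far.dc_tri a b)]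
  exact Λ.map_smul s _

theorem X_mul_r (a : Dc Ψ) (b : Dc h) (s : ℂ) : X Λ Ψ (fun z => s * h z) = s * X Λ Ψ h := by
  rw [← X_mul_l a b]
  simp only [X, mul_left_comm s, mul_assoc]

theorem X_tra (hΛ : Inv Λ) (a : Dc Ψ) (b : Dc h) (y : V) :
    X Λ (fun z => fderiv ℝ Ψ z (y, y)) h + X Λ Ψ (fun z => fderiv ℝ h z y) = 0 := by
  have := hΛ.dtra (Far.dc_tri a b) y
  simp only [fd_tri a b] at this
  rwa [Api4.sch_add (Far.dc_tri (Api4.dc_fderiv a contDiff_const) b)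
    (Far.dc_tri a (Api4.dc_fderiv b contDiff_const)), map_add] at this

theorem X_rot (hΛ : Inv Λ) (a : Dc Ψ) (b : Dc h) (i : Fin 2) :
    X Λ (fun z => fderiv ℝ Ψ z (mL i z.1, mL i z.2)) h +
      X Λ Ψ (fun z => fderiv ℝ h z (mL i z)) = 0 := by
  have := hΛ.drot (Far.dc_tri a b) i
  simp only [fd_tri a b] at this
  rwa [Api4.sch_add (Far.dc_tri (Api4.dc_fderiv a (X := fun z => (mL i z.1, mL i z.2))
    ((mL i).prodMap (mL i)).contDiff) b)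
    (Far.dc_tri a (Api4.dc_fderiv b (mL i).contDiff)), map_add] at this

end bil

theorem X_bd (Λ : S3 →L[ℂ] ℂ) : ∃ (m : ℕ) (C : ℝ), 0 ≤ C ∧ ∀ Ψ h, Dc Ψ → Dc h →
    ‖X Λ Ψ h‖ ≤ C * sn m (sch Ψ) * sn m (sch h) := by
  obtain ⟨m, C, hC, h⟩ := SB.clm Λ
  let e : (V × V × V) ≃L[ℝ] (V × V) × V := Far.sw2.trans (ContinuousLinearEquiv.prodAssoc ℝ V V V).symm
  obtain ⟨C', hC', h'⟩ := Api4.sn_tenE e m
  refine ⟨m, C * C', by positivity, fun Ψ f hΨ hf => ?_⟩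
  have := (h _).trans (mul_le_mul_of_nonneg_left (h' (sch Ψ) (sch f)) hC)
  rw [← Api4.sch_tenE e hΨ hf, ← mul_assoc, ← mul_assoc] at this
  exact this

/-! ## bounds that are uniform in the cutoff and in the profile -/

theorem X_gS (j : ℕ) {g : P3 → ℝ} {R : ℝ → ℝ} {Ψ : V × V → ℂ} (h : Tst g) (hR : Tst R) (hΨ : Dc Ψ)
    {L : ℝ} (hL : 1 ≤ L) : ‖X Λ Ψ (pr (gS j g L) R)‖ ≤ ‖(L : ℂ) ^ 1 * X Λ Ψ (pr (kL g L) R)‖ := by
  rw [pow_one, pr_gS, X_mul_r hΨ (Far.dc_pr (Ap.tst_kL h (by linarith)) hR), norm_mul, norm_mul,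
    Complex.norm_real, Complex.norm_real, Real.norm_of_nonneg (by positivity),
    Real.norm_of_nonneg (by linarith)]
  exact mul_le_mul_of_nonneg_right
    (div_le_self (by linarith) (one_le_pow₀ (Real.one_le_sqrt.2 hL))) (norm_nonneg _)

theorem X_far (hf : Far0 Λ 1) (j : ℕ) {g : P3 → ℝ} {R : ℝ → ℝ} {Ψ : V × V → ℂ} (h : Tst g)
    (h0 : (0 : P3) ∉ tsupport g) (hR : Tst R) (hΨ : Dc Ψ) {η : ℝ} (hη : 0 < η) :
    ∀ᶠ L in atTop, ‖X Λ Ψ (pr (gS j g L) R)‖ ≤ η := by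
  have := (hf g R Ψ h h0 hR hΨ).norm
  rw [norm_zero] at this
  filter_upwards [this.eventually_le_const hη, eventually_ge_atTop (1 : ℝ)] with L h1 h2
  exact (X_gS j h hR hΨ h2).trans h1

/-- bounds in terms of `i` derivatives of the profile -/
def Bnd (Λ : S3 →L[ℂ] ℂ) (i m : ℕ) : Prop := ∀ j g r, KC j g → ∃ C A : ℝ, 0 ≤ C ∧ 1 ≤ A ∧
  ∀ L Ψ R M, A ≤ L → Dc Ψ → tsupport Ψ ⊆ Metric.closedBall 0 r → Tst R →
    tsupport R ⊆ Set.Icc (-1) 1 → Nb i R M → ‖X Λ Ψ (pr (gS j g L) R)‖ ≤ C * sn m (sch Ψ) * M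

theorem bnd0 (t : FarB Λ 1) : ∃ m, Bnd Λ (m + 1) m := by
  obtain ⟨κ, hκ, m1, h1⟩ := t
  obtain ⟨m2, C2, hC2, h2⟩ := X_bd Λ
  set m := max m1 m2
  obtain ⟨C3, hC3, h3⟩ := sn_pr m
  refine ⟨m, fun j g r hg => ?_⟩
  have t1 : Tst fun y => g y - 2 ^ j / 4 * kL g (1 / 4) y :=
    Ap.cs_sub hg.tst (Ap.cs_cmul _ (Ap.tst_kL hg.tst (by norm_num)))
  obtain ⟨C1, A, hC1, hA, h1⟩ := h1 _ r 1 t1
    (notMem_tsupport_iff_eventuallyEq.2 (hg.hom.mono fun y hy => sub_eq_zero.2 hy))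
  have hq : 0 < (4 : ℝ) ^ κ - 1 := sub_pos.2 (Real.one_lt_rpow (by norm_num) hκ)
  set B := 4 * A * ((4 * A) ^ m * (4 * A) ^ m * 2 ^ m * sn m (sch (cx g))) with hB
  have hB0 : 0 ≤ B := by have := Lie.sn_nonneg m (sch (cx g)); positivity
  refine ⟨(C2 * C3 * B + C1 * ((4 : ℝ) ^ κ - 1)⁻¹) * 2 ^ m, A, by positivity, hA,
    fun L Ψ R M hL hΨ hr hR hs hN => ?_⟩
  have s1 := Lie.sn_nonneg m (sch Ψ)
  have s2 := Lie.sn_nonneg m (sch (cx R))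
  have := tele (u := fun L => ‖X Λ Ψ (pr (gS j g L) R)‖)
    (a := C2 * sn m (sch Ψ) * (C3 * B * sn m (sch (cx R))))
    (b := C1 * sn m (sch Ψ) * sn m (sch (cx R))) hκ hA (by positivity) (fun L a1 a2 => ?_)
    (fun L a1 => ?_) hL
  · refine this.trans (le_trans (le_of_eq (b := (C2 * C3 * B + C1 * ((4 : ℝ) ^ κ - 1)⁻¹) *
      sn m (sch Ψ) * sn m (sch (cx R))) (by ring)) ?_)
    exact (mul_le_mul_of_nonneg_left (sn_Nb hR hs hN) (by positivity)).trans_eq (by ring)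
  · have t2 := tst_gS j hg.tst (by linarith : 0 < L)
    refine (h2 _ _ hΨ (Far.dc_pr t2 hR)).trans (mul_le_mul (sn_up hC2 (le_max_right _ _) _)
      ((Lie.sn_mono (le_max_right _ _) _).trans ((h3 _ _ t2 hR).trans ?_)) (Lie.sn_nonneg _ _)
      (by positivity))
    exact mul_le_mul_of_nonneg_right (mul_le_mul_of_nonneg_left
      (sn_gS m j hg.tst (by linarith) a2) hC3) s2
  · beta_reduce
    rw [gS_split j g (by linarith) R, X_add_r hΨ (Far.dc_pr (tst_gS j hg.tst (by linarith)) hR)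
      (Far.dc_pr (tst_gS j t1 (by linarith)) hR)]
    refine (norm_add_le _ _).trans (add_le_add le_rfl ((X_gS j t1 hR hΨ (by linarith)).trans
      ((h1 L Ψ R (by linarith) hΨ hr hR hs).trans ?_)))
    have a3 : 0 ≤ L ^ (-κ) := Real.rpow_nonneg (by linarith) _
    have s3 := Lie.sn_nonneg m1 (sch (cx R))
    calc _ ≤ C1 * L ^ (-κ) * sn m (sch Ψ) * sn m (sch (cx R)) := by
          gcongr <;> exact Lie.sn_mono (le_max_left _ _) _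
      _ = _ := by ring

theorem bnd_step (hΛ : Inv Λ) {i m : ℕ} (h : Bnd Λ (i + 1) m) : ∃ m', Bnd Λ i m' := by
  obtain ⟨χ, Cp, tχ, sχ, hCp, prim⟩ := CK.prim_row
  have sχ' : tsupport χ ⊆ Set.Icc (-1) 1 := sχ.trans (Set.Icc_subset_Icc_left (by norm_num))
  obtain ⟨Mχ, hχ⟩ := ex_Nb tχ (i + 1)
  have hMχ := hχ.nonneg
  obtain ⟨m1, C1, hC1, h1⟩ := (SB.sn m zero_le_one).comp
    (LineDeriv.lineDerivOpCLM ℝ S2 ((vb, vb) : V × V))
  refine ⟨max m m1, fun j g r hg => ?_⟩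
  obtain ⟨C, A, hC, hA, h⟩ := h j g r hg
  refine ⟨C * C1 * (1 + Mχ + 2 * Cp) + C * Mχ, A, by positivity, hA,
    fun L Ψ ρ M hL hΨ hr hρ hs hN => ?_⟩
  obtain ⟨R, tR, sR, e, hR⟩ := prim ρ hρ hs
  have t2 := tst_gS j hg.tst (by linarith : 0 < L)
  have d1 := Far.dc_pr t2 tR
  have d2 := Far.dc_pr t2 tχ
  have e1 : pr (gS j g L) ρ = fun z => fderiv ℝ (pr (gS j g L) R) z vb +
      ((∫ t, ρ t : ℝ) : ℂ) * pr (gS j g L) χ z := funext fun z => by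
    rw [fd_pr t2 tR, pr, pr, e (be z), Ap.pl_vb, be_vb, map_zero]
    push_cast
    ring
  have a1 := h L _ R _ hL (Api4.dc_fderiv hΨ (X := fun _ => (vb, vb)) contDiff_const)
    ((Api4.tsupport_fderiv_subset _ _).trans hr) tR sR (hN.prim hχ hρ tχ tR sR hCp e hR)
  have a2 := h L Ψ χ _ hL hΨ hr tχ sχ' hχ
  have a3 := h1 (sch Ψ)
  beta_reduce at a3
  rw [one_mul, LineDeriv.lineDerivOpCLM_apply, ← Api4.sch_fderiv hΨ] at a3
  have hc : ‖∫ t, ρ t‖ ≤ M := (norm_integral_le_integral_norm _).trans hN.2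
  have hM := hN.nonneg
  rw [e1, X_add_r hΨ (Api4.dc_fderiv d1 contDiff_const) (Api4.dc_const_mul _ d2), X_mul_r hΨ d2,
    eq_neg_of_add_eq_zero_right (X_tra hΛ hΨ d1 vb)]
  refine (norm_add_le _ _).trans ?_
  rw [norm_neg, norm_mul, Complex.norm_real]
  refine (add_le_add (a1.trans (mul_le_mul_of_nonneg_right (mul_le_mul_of_nonneg_left
    (a3.trans (sn_up hC1 (le_max_right m m1) _)) hC) (by positivity)))
    (mul_le_mul hc (a2.trans (mul_le_mul_of_nonneg_right (sn_up hC (le_max_left m m1) _) hMχ))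
      (norm_nonneg _) hM)).trans_eq ?_
  ring

theorem bnd (hΛ : Inv Λ) (t : FarB Λ 1) : ∃ m, Bnd Λ 0 m := by
  obtain ⟨m, h⟩ := bnd0 t
  have : ∀ i, (∃ m, Bnd Λ i m) → ∃ m, Bnd Λ 0 m := fun i => by
    induction i with
    | zero => exact id
    | succ i ih => exact fun ⟨_, h⟩ => ih (bnd_step hΛ h)
  exact this _ ⟨m, h⟩

/-- **The Ward identity of the null rotations.** -/
theorem ward (hΛ : Inv Λ) {G : E5 → ℂ} {K R : ℝ → ℝ} {g : P3 → ℝ} {ε : ℝ} (hG : Dc G) (hK : Tst K)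
    (hg : Tst g) (hR : Tst R) (h : ε ∈ Set.Ioc (0 : ℝ) 1) (i : Fin 2) :
    X Λ (Ps (mu5 (fun u => u.1.2 i - u.1.1.2 i) G) (deriv K) ε) (pr g R) =
      X Λ (Ps (mu5 (fun u => u.1.1.2 i) G) K ε) (pr (da g) R) -
      X Λ (Ps G K ε) (pr (xi i (da g)) R) - X Λ (Ps G K ε) (pr (di i g) fun t => t * R t) -
      ε * X Λ (Ps (fun u => fderiv ℝ G u (NL i u)) K ε) (pr g R) := by
  have d0 := Far.dc_pr hg hR
  have d1 := dc_Ps (dc_mu5 (φ := fun u => u.1.1.2 i) (by fun_prop) hG) hK h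
  have d2 := dc_Ps (Api4.dc_fderiv hG (smooth_NL i)) hK h
  have d3 := dc_Ps (dc_mu5 (φ := fun u => u.1.2 i - u.1.1.2 i) (by fun_prop) hG)
    (Ap.cs_deriv hK) h
  have a1 := X_rot hΛ (dc_Ps hG hK h) d0 i
  have a2 := X_tra hΛ d1 d0 va
  simp only [rot_Ps hG hK h.1.ne', rot_pr hg hR] at a1
  simp only [tra_pr hg hR] at a2
  rw [X_add_l (Api4.dc_fderiv d1 contDiff_const) (Api4.dc_add (Api4.dc_const_mul _ d2) d3) d0,
    X_add_l (Api4.dc_const_mul _ d2) d3 d0, X_mul_l d2 d0,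
    X_add_r (dc_Ps hG hK h) (Far.dc_pr (tst_xi i (tst_da hg)) hR)
      (Far.dc_pr (tst_di i hg) (Ap.cs_mul_l contDiff_fun_id hR))] at a1
  linear_combination a1 - a2

/-- the terms -/
def Tm (Λ : S3 →L[ℂ] ℂ) (G : E5 → ℂ) (K : ℝ → ℝ) (j : ℕ) (g : P3 → ℝ) (ρ : ℝ → ℝ) (ε δ L : ℝ) : ℂ :=
  X Λ (Ps G K ε) (pr (gS j g L) (dlt δ ρ))

/-- the bound for functions with `n` vanishing moments -/
def PN (Λ : S3 →L[ℂ] ℂ) (w : ℝ → ℝ) (n : ℕ) : Prop := ∀ G K j g ρ, Cl G → Mom n K → KC j g → Tst ρ →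
  tsupport ρ ⊆ Set.Icc (-1) 1 → Ev w (Tm Λ G K j g ρ)

theorem pn_zero (hΛ : Inv Λ) (t : FarB Λ 1) : ∃ m : ℕ, PN Λ (fun ε => ε⁻¹ ^ m) 0 := by
  obtain ⟨m, h⟩ := bnd hΛ t
  refine ⟨m, fun G K j g ρ hG hK hg hρ hs => ?_⟩
  obtain ⟨r, hr⟩ := supp_Ps hG.1 hK.1
  obtain ⟨C1, hC1, h1⟩ := sn_Ps hG.1 hK.1 m
  obtain ⟨C, A, hC, -, h⟩ := h j g r hg
  have h0 : 0 ≤ ∫ t, |ρ t| := integral_nonneg fun _ => abs_nonneg _
  refine ⟨C * C1 * ∫ t, |ρ t|, by positivity, fun ε hε δ hδ => ?_⟩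
  filter_upwards [eventually_ge_atTop A] with L hL
  refine (h L _ _ (∫ t, |ρ t|) hL (dc_Ps hG.1 hK.1 hε) (hr ε hε) (Ap.tst_dlt hρ hδ.1.ne')
    ((Ap.tsupport_dlt_Icc hs hδ.1).trans (Set.Icc_subset_Icc (by linarith [hδ.2, hε.2])
      (by linarith [hδ.2, hε.2]))) ⟨fun l hl => absurd hl (Nat.not_lt_zero l), le_of_eq ?_⟩).trans
    ((mul_le_mul_of_nonneg_right (mul_le_mul_of_nonneg_left (h1 ε hε) hC) h0).trans_eq (by ring))
  simp only [Ap.abs_dlt hδ.1, Ap.integral_dlt hδ.1]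

theorem ev_far (hf : Far0 Λ 1) {w : ℝ → ℝ} (hw : ∀ ε, 0 < ε → 0 < w ε) {G : E5 → ℂ} {K ρ : ℝ → ℝ}
    (j : ℕ) {g : P3 → ℝ} (hG : Dc G) (hK : Tst K) (hg : Tst g) (h0 : (0 : P3) ∉ tsupport g)
    (hρ : Tst ρ) : Ev w (Tm Λ G K j g ρ) :=
  ⟨1, zero_le_one, fun ε hε δ hδ => X_far hf j hg h0 (Ap.tst_dlt hρ hδ.1.ne') (dc_Ps hG hK hε)
    (by rw [one_mul]; exact hw ε hε.1)⟩

theorem pn_one (hΛ : Inv Λ) (hf : Far0 Λ 1) {w : ℝ → ℝ} (hw : ∀ ε, 0 < ε → 0 < w ε) {n : ℕ}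
    (h : PN Λ w n) {G : E5 → ℂ} {K ρ : ℝ → ℝ} {j : ℕ} {g : P3 → ℝ} (hG : Cl G) (hK : Mom n K)
    (hg : KC j g) (hρ : Tst ρ) (hs : tsupport ρ ⊆ Set.Icc (-1) 1) (i : Fin 2) :
    Ev (fun ε => ε * w ε) (Tm Λ (mu5 (fun u => u.1.2 i - u.1.1.2 i) G) (deriv K) j g ρ) := by
  have hw' : ∀ ε, 0 < ε → 0 < ε * w ε := fun ε a => mul_pos a (hw ε a)
  have tρ : Tst fun t => t * ρ t := Ap.cs_mul_l contDiff_fun_id hρ
  have a1 := ev_far hf hw' (j + 2) (dc_mu5 (φ := fun u => u.1.1.2 i) (by fun_prop) hG.1) hK.1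
    (tst_da hg.tst) hg.da0 hρ
  have a2 := ev_far hf hw' (j + 1) hG.1 hK.1 (tst_xi i (tst_da hg.tst)) (hg.xda0 i) hρ
  have a3 := (h G K _ _ _ hG hK (hg.di i) tρ (tsupport_mul_subset_right.trans hs)).gain
    (s := fun _ δ => δ) fun ε _ δ hδ => (abs_of_pos hδ.1).trans_le hδ.2
  have a4 := (h _ K _ _ _ (hG.der i) hK hg hρ hs).gain (s := fun ε _ => ε)
    fun ε hε _ _ => (abs_of_pos hε.1).le
  refine (((a1.sub a2).sub a3).sub a4).congr fun ε hε δ hδ L hL => ?_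
  have e : pr (gS (j + 1) (di i g) L) (fun t => t * dlt δ ρ t) =
      fun z => (δ : ℂ) * pr (gS (j + 1) (di i g) L) (dlt δ fun t => t * ρ t) z := funext fun z => by
    have := Ap.pow_dlt hδ.1.ne' 1 ρ (be z)
    simp only [pow_one] at this
    simp only [pr, this]
    push_cast
    ring
  rw [Tm, ward hΛ hG.1 hK.1 (tst_gS j hg.tst hL) (Ap.tst_dlt hρ hδ.1.ne') hε i, da_gS hg.tst hL,
    xi_gS i hL, di_gS i hg.tst hL, e, X_mul_r (dc_Ps hG.1 hK.1 hε)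
      (Far.dc_pr (tst_gS _ (tst_di i hg.tst) hL) (Ap.tst_dlt tρ hδ.1.ne'))]
  rfl

theorem pn_succ (hΛ : Inv Λ) (hf : Far0 Λ 1) {w : ℝ → ℝ} (hw : ∀ ε, 0 < ε → 0 < w ε) {n : ℕ}
    (h : PN Λ w n) : PN Λ (fun ε => ε * w ε) (n + 1) := by
  intro G k j g ρ hG hk hg hρ hs
  obtain ⟨K, hK, rfl⟩ := hk.prim
  refine ((pn_one hΛ hf hw h (hG.div 0) hK hg hρ hs 0).add
    (pn_one hΛ hf hw h (hG.div 1) hK hg hρ hs 1)).congr fun ε hε δ hδ L hL => ?_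
  simp only [Tm]
  rw [← X_add_l (dc_Ps ((hG.div 0).mul (by fun_prop)).1 hk.1 hε)
    (dc_Ps ((hG.div 1).mul (by fun_prop)).1 hk.1 hε)
    (Far.dc_pr (tst_gS j hg.tst hL) (Ap.tst_dlt hρ hδ.1.ne'))]
  congr 1
  funext z
  simp only [IXH.Ps, ten, ← add_mul, ← hG.split]

theorem pn (hΛ : Inv Λ) (t : FarB Λ 1) : ∃ n, PN Λ (fun ε => ε) n := by
  obtain ⟨m, h⟩ := pn_zero hΛ t
  have key : ∀ n, PN Λ (fun ε => ε ^ n * ε⁻¹ ^ m) n := fun n => by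
    induction n with
    | zero => simpa only [pow_zero, one_mul] using h
    | succ n ih =>
      simpa only [pow_succ', mul_assoc] using pn_succ hΛ t.far (fun ε a => by positivity) ih
  refine ⟨m + 1, fun G K j g ρ a1 a2 a3 a4 a5 => ?_⟩
  obtain ⟨C, hC, h⟩ := key (m + 1) G K j g ρ a1 a2 a3 a4 a5
  refine ⟨C, hC, fun ε hε δ hδ => (h ε hε δ hδ).mono fun L a => a.trans_eq ?_⟩
  have := hε.1.ne'
  beta_reduce
  rw [inv_pow]
  field_simp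
  ring

/-! ## the weight -/

/-- the test function of the two legs with the weight `(al1 - al3)^q` -/
def Pq (q : ℕ) (G : E5 → ℂ) (k : ℝ → ℝ) (ε : ℝ) : V × V → ℂ :=
  fun z => (((al z.1 - al z.2) ^ q : ℝ) : ℂ) * Ps G k ε z

theorem dc_Pq (q : ℕ) {G : E5 → ℂ} {k : ℝ → ℝ} {ε : ℝ} (hG : Dc G) (hk : Tst k)
    (h : ε ∈ Set.Ioc (0 : ℝ) 1) : Dc (Pq q G k ε) :=
  Api4.dc_mul_left (Ap.smooth_cx (by fun_prop)) (dc_Ps hG hk h)

theorem ev_two {w : ℝ → ℝ} {n : ℕ} (h : PN Λ w n) {ρ : ℝ → ℝ} {j : ℕ} {g : P3 → ℝ}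
    (hg : KC j g) (hρ : Tst ρ) (hs : tsupport ρ ⊆ Set.Icc (-1) 1) (q : ℕ) :
    ∀ {G : E5 → ℂ} {k : ℝ → ℝ}, Cl G → Mom (n + q) k →
      Ev w fun ε δ L => X Λ (Pq q G k ε) (pr (gS j g L) (dlt δ ρ)) := by
  induction q with
  | zero =>
    refine fun {G k} hG hk => (h _ _ j g ρ hG hk hg hρ hs).congr fun ε hε δ hδ L hL => ?_
    simp only [Tm]
    congr 1
    funext z
    simp [Pq]
  | succ q ih =>
    intro G k hG hk
    have c1 := hG.mul (φ := fun u => u.1.1.1) (by fun_prop)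
    have c2 := hG.mul (φ := fun _ => -1) (by fun_prop)
    have k1 : Mom (n + q) k := Mom.mono hk
    have k2 : Mom (n + q) fun t => t * k t := Mom.mul hk
    refine ((ih c1 k1).add (ih c2 k2)).congr fun ε hε δ hδ L hL => ?_
    rw [← X_add_l (dc_Pq q c1.1 k1.1 hε) (dc_Pq q c2.1 k2.1 hε)
      (Far.dc_pr (tst_gS j hg.tst hL) (Ap.tst_dlt hρ hδ.1.ne'))]
    congr 1
    funext z
    simp only [Pq, IXH.Ps, ten, mu5, cx, BL_apply, pl_1]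
    push_cast
    ring

/-- the term `i` of the weight `(x2 - x1).(x2 - x3)` -/
def Fi (G : E5 → ℂ) (k : ℝ → ℝ) (κ : P3 → ℝ) (ρ : ℝ → ℝ) (ε δ L : ℝ) (i : Fin 2)
    (z : V × V × V) : ℂ :=
  (((tx z.2.1 i - tx z.1 i) * (tx z.2.1 i - tx z.2.2 i) : ℝ) : ℂ) *
    (Pq 6 G k ε (z.1, z.2.2) * pr (kL κ L) (dlt δ ρ) z.2.1)

theorem ev_three {w : ℝ → ℝ} {n : ℕ} (h : PN Λ w n) {G : E5 → ℂ} {k ρ : ℝ → ℝ} {κ : P3 → ℝ}
    (hG : Cl G) (hk : Mom (n + 6) k) (hκ : Cut κ) (hρ : Tst ρ) (hs : tsupport ρ ⊆ Set.Icc (-1) 1)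
    (i : Fin 2) : Ev w fun ε δ L => Λ (sch (Fi G k κ ρ ε δ L i)) := by
  have k2 := kc_cut hκ
  have k1 := k2.xi i
  have k0 := k1.xi i
  have c1 := hG.mul (φ := fun u => -(u.1.1.2 i + u.1.2 i)) (by fun_prop)
  have c2 := hG.mul (φ := fun u => u.1.1.2 i * u.1.2 i) (by fun_prop)
  refine (((ev_two h k0 hρ hs 6 hG hk).add (ev_two h k1 hρ hs 6 c1 hk)).add
    (ev_two h k2 hρ hs 6 c2 hk)).congr fun ε hε δ hδ L hL => ?_
  have tρ := Ap.tst_dlt hρ hδ.1.ne'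
  have d0 := Far.dc_tri (dc_Pq 6 hG.1 hk.1 hε) (Far.dc_pr (tst_gS 0 k0.tst hL) tρ)
  have d1 := Far.dc_tri (dc_Pq 6 c1.1 hk.1 hε) (Far.dc_pr (tst_gS 1 k1.tst hL) tρ)
  have d2 := Far.dc_tri (dc_Pq 6 c2.1 hk.1 hε) (Far.dc_pr (tst_gS 2 k2.tst hL) tρ)
  simp only [X]
  rw [← map_add, ← map_add, ← Api4.sch_add d0 d1, ← Api4.sch_add (Api4.dc_add d0 d1) d2]
  congr 2
  funext z
  rw [← xi_gS i hL, ← xi_gS i hL, gS_two hL]
  simp only [Fi, Pq, IXH.Ps, ten, mu5, cx, BL_apply, pl_2, pr, xi]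
  push_cast
  ring

theorem ix (hΛ : Inv Λ) (t : FarB Λ 1) : IX Λ := by
  obtain ⟨n, h⟩ := pn hΛ t
  refine ⟨n + 5, fun ρ1 κ k θ ρ k' h1 hκ hk hθ hρ hk' hm h2 hs η hη => ?_⟩
  have hG := cl_G0 h1 hθ hk' h2
  have hM : Mom (n + 6) k := ⟨hk, fun j hj => hm j (by omega)⟩
  obtain ⟨C, hC, h3⟩ := (ev_three h hG hM hκ hρ hs 0).add (ev_three h hG hM hκ hρ hs 1)
  have a1 : ∀ᶠ ε in 𝓝[>] (0 : ℝ), C * ε ≤ η := by
    have : Tendsto (fun ε : ℝ => C * ε) (𝓝 0) (𝓝 0) :=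
      Continuous.tendsto' (by fun_prop) _ _ (mul_zero C)
    exact (this.eventually_le_const hη).filter_mono nhdsWithin_le_nhds
  filter_upwards [a1, Ioc_mem_nhdsGT (zero_lt_one' ℝ)] with ε a2 hε δ hδ
  filter_upwards [h3 ε hε δ hδ, eventually_gt_atTop (0 : ℝ)] with L a3 hL
  have d : ∀ i, Dc (Fi (G0 ρ1 θ k') k κ ρ ε δ L i) := fun i =>
    Api4.dc_mul_left (Ap.smooth_cx (by fun_prop)) (Far.dc_tri (dc_Pq 6 hG.1 hk hε)
      (Far.dc_pr (Ap.tst_kL hκ.1 hL) (Ap.tst_dlt hρ hδ.1.ne')))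
  rw [← map_add, ← Api4.sch_add (d 0) (d 1)] at a3
  refine le_trans (le_of_eq ?_) (a3.trans a2)
  congr 3
  funext z
  simp only [Fi, Pq, IXH.Ps, ten, cx, BL_apply, pl_1, pl_2, pr, IXH.G0, Ph, d2, dx_k3 hk hk', dil,
    div_eq_inv_mul, Pi.sub_apply]
  push_cast
  ring

end

end Vale.Agent.P352L.Fx
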