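import Vale.Agent.P352L.F.Red

/-!
# P352L, block F: the operators `hD` and the functionals `tX` (helper72)
-/

set_option linter.all false

open MeasureTheory Filter Topology
open scoped SchwartzMap ComplexConjugate ENNReal ContDiff

namespace Vale.Agent.P352L.Fx

open Vale.Agent.P352 Vale.Agent.P352.GF Vale.Agent.P352.BW Vale.Agent.P352.H246
open Vale.Agent.P352.H496 Vale.Agent.P352.H755 Vale.Agent.P352.H15
open Vale.Agent.P352X
open IXH (ue ua ue_inv ua_inv)

noncomputable section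

section rel

variable {E E' E'' : Type*} [NormedAddCommGroup E] [NormedSpace ℝ E] [NormedAddCommGroup E']
  [NormedSpace ℝ E'] [NormedAddCommGroup E''] [NormedSpace ℝ E''] {e : V →L[ℝ] E} {e' : V →L[ℝ] E'}
  {F : 𝓢(E, ℂ)} {F' : 𝓢(E', ℂ)}

theorem hD_rel {R : 𝓢(E, ℂ) → 𝓢(E', ℂ) → Prop}
    (add : ∀ F F' G G', R F F' → R G G' → R (F + G) (F' + G'))
    (smul : ∀ (a : ℝ) F F', R F F' → R ((a : ℂ) • F) ((a : ℂ) • F'))
    (der : ∀ v F F', R F F' → R (dD (e v) F) (dD (e' v) F')) (I : I2) (h : R F F') :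
    R (hD e I F) (hD e' I F') := by
  have k := fun (a : ℝ) v => smul a _ _ (der v _ _ (der v _ _ h))
  simp only [hD, bD, pD, ContinuousLinearMap.add_apply, ContinuousLinearMap.smul_apply,
    ContinuousLinearMap.mul_apply, Fin.sum_univ_four]
  exact add _ _ _ _ (k _ _) (smul _ _ _ (add _ _ _ _ (add _ _ _ _ (add _ _ _ _ (k _ _) (k _ _))
    (k _ _)) (k _ _)))

theorem hD_supp (e : V →L[ℝ] E) (I : I2) (F : 𝓢(E, ℂ)) : tsupport (hD e I F) ⊆ tsupport F :=
  hD_rel (e := e) (e' := e) (R := fun G _ => tsupport G ⊆ tsupport F) (F' := F)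
    (fun _ _ _ _ a b => (tsupport_add _ _).trans (Set.union_subset a b))
    (fun a G _ h => (tsupport_smul_subset_right (fun _ => (a : ℂ)) G).trans h)
    (fun v G _ h => by
      rw [show ⇑(dD (e v) G) = _ from funext (dD_eq _ G)]
      exact (Ap.tsupport_fd _ _).trans h) I subset_rfl

/-- tensor products -/
theorem hD_ten (A : E' →L[ℝ] E) (B : E' →L[ℝ] E'') (f : 𝓢(E'', ℂ)) (hA : ∀ v, A (e' v) = e v)
    (hB : ∀ v, B (e' v) = 0) (I : I2) (h : ∀ z, F' z = F (A z) * f (B z)) :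
    ∀ z, hD e' I F' z = hD e I F (A z) * f (B z) :=
  hD_rel (R := fun F F' => ∀ z, F' z = F (A z) * f (B z))
    (fun _ _ _ _ a b z => by simp only [SchwartzMap.add_apply, a, b, add_mul])
    (fun _ _ _ a z => by simp only [SchwartzMap.smul_apply, a, smul_mul_assoc])
    (fun v G G' a z => by
      rw [dD_eq, dD_eq, show ⇑G' = _ from funext a]
      refine (congrArg (· (e' v)) ((G.differentiableAt.hasFDerivAt.comp z A.hasFDerivAt).mul
        (f.differentiableAt.hasFDerivAt.comp z B.hasFDerivAt)).fderiv).trans ?_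
      simp [hA, hB, mul_comm]) I h

/-- affine maps -/
theorem hD_aff (A : E' →L[ℝ] E) (a : E) (hA : ∀ v, A (e' v) = e v) (I : I2)
    (h : ∀ z, F' z = F (A z + a)) : ∀ z, hD e' I F' z = hD e I F (A z + a) :=
  hD_rel (R := fun F F' => ∀ z, F' z = F (A z + a))
    (fun _ _ _ _ a b z => by simp only [SchwartzMap.add_apply, a, b])
    (fun _ _ _ a z => by simp only [SchwartzMap.smul_apply, a])
    (fun v G G' b z => by
      rw [dD_eq, dD_eq, show ⇑G' = _ from funext b]
      refine (congrArg (· (e' v)) (G.differentiableAt.hasFDerivAt.comp z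
        (A.hasFDerivAt.add_const a)).fderiv).trans ?_
      simp [hA]) I h

/-- complex conjugation -/
theorem hD_conj (A : E' →L[ℝ] E) (hA : ∀ v, A (e' v) = e v) (I : I2)
    (h : ∀ z, F' z = conj (F (A z))) : ∀ z, hD e' I F' z = conj (hD e I F (A z)) :=
  hD_rel (R := fun F F' => ∀ z, F' z = conj (F (A z)))
    (fun _ _ _ _ a b z => by simp only [SchwartzMap.add_apply, a, b, map_add])
    (fun _ _ _ a z => by
      simp only [SchwartzMap.smul_apply, a, smul_eq_mul, map_mul, Complex.conj_ofReal])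
    (fun v G G' b z => by
      rw [dD_eq, dD_eq, show ⇑G' = _ from funext b]
      refine (congrArg (· (e' v)) ((Complex.conjCLE : ℂ →L[ℝ] ℂ).hasFDerivAt.comp z
        (G.differentiableAt.hasFDerivAt.comp z A.hasFDerivAt)).fderiv).trans ?_
      simp [hA]) I h

theorem hD_comm1 {X : 𝓢(E, ℂ) →L[ℂ] 𝓢(E, ℂ)} (h : ∀ v, Commute (dD (e v)) X) (I : I2) :
    Commute (hD e I) X :=
  (((h _).mul_left (h _)).smul_left _).add_left ((Commute.sum_left _ _ _ fun m _ =>
    ((h _).mul_left (h _)).smul_left _).smul_left _)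

theorem hD_comm (e e' : V →L[ℝ] E) (I K : I2) : Commute (hD e I) (hD e' K) :=
  hD_comm1 (fun _ => (hD_comm1 (fun _ => dD_comm _ _) K).symm) I

theorem hD_gap (e : V →L[ℝ] E) (w : R2) (I : I2) : hD (e ∘L gapL w) I = hD e I := by
  have h1 : gap w va = va := null_ext (by simp) (by simp) (by simp)
  have h2 : bD (e ∘L gapL w) = bD e := by
    rw [bD_sy e]
    simp only [bD, pD, ContinuousLinearMap.comp_apply, dD_sy e, ← map_mul, ← map_smul, ← map_sum]
    refine sy_ext e fun p => ?_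
    simp only [map_add, map_smul, map_mul, map_sum, map_sub, MvPolynomial.aeval_X, smul_eq_mul]
    simp [Fin.sum_univ_four, gap, pt, al, be, tx, GF.mdot, bas, va, vb, eta, o, d2]
    ring
  simp only [hD, h2, ContinuousLinearMap.comp_apply, gapL_apply, h1]

theorem hD_jr (e : V →L[ℝ] E) (I : I2) : hD (e ∘L jrL) I = hD e I := by
  have h1 : jr va = (-1 : ℝ) • va := null_ext (by simp) (by simp) (by simp)
  have h2 : bD (e ∘L jrL) = bD e := by
    rw [bD_sy e]
    simp only [bD, pD, ContinuousLinearMap.comp_apply, dD_sy e, ← map_mul, ← map_smul, ← map_sum]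
    refine sy_ext e fun p => ?_
    simp only [map_add, map_smul, map_mul, map_sum, map_sub, MvPolynomial.aeval_X, smul_eq_mul]
    simp [Fin.sum_univ_four, jr, pt, al, be, tx, GF.mdot, bas, va, vb, eta, o]
    ring
  simp only [hD, h2, ContinuousLinearMap.comp_apply, jrL_apply, h1, map_smul, dD_smul,
    smul_mul_smul_comm]
  norm_num

/-- the tensor `a a` with lower indices -/
def aa (J : I2) : ℝ := la J.1 * la J.2

theorem gm_eq (I : I2) : (gm I : ℂ) = ue I := by
  simp only [gm, ue, bas]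
  split_ifs <;> simp

theorem hD_inv {A : I2 → I2 → ℂ} (h1 : ∀ K, ∑ I, A K I * (gm I : ℂ) = gm K)
    (h2 : ∀ K, ∑ I, A K I * (aa I : ℂ) = aa K) (e : V →L[ℝ] E) (K : I2) :
    ∑ I, A K I • hD e I = hD e K := by
  have e3 : ∀ I : I2, ((3 * (la I.1 * la I.2) : ℝ) : ℂ) = aa I * 3 := fun I => by
    rw [aa]; push_cast; ring
  simp only [hD, e3]
  simp only [smul_add, smul_smul, ← mul_assoc, Finset.sum_add_distrib, ← Finset.sum_smul,
    ← Finset.sum_mul, h1, h2]

end rel

/-! ## the functionals -/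

/-- `t(W, T(u), W)` -/
def tX (t : I2 → I2 → I2 → S3 →L[ℂ] ℂ) (u : I2 → ℝ) : S3 →L[ℂ] ℂ :=
  ∑ J, (u J : ℂ) • ∑ I, ∑ K, t I J K ∘L (hD j1 I * hD j3 K)

variable {t : I2 → I2 → I2 → S3 →L[ℂ] ℂ} {u : I2 → ℝ}

theorem tX_apply (F : S3) :
    tX t u F = ∑ I, ∑ J, ∑ K, u J * t I J K (hD j1 I (hD j3 K F)) := by
  simp only [tX, ContinuousLinearMap.sum_apply, ContinuousLinearMap.smul_apply,
    ContinuousLinearMap.comp_apply, ContinuousLinearMap.mul_apply, smul_eq_mul, Finset.mul_sum]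
  exact Finset.sum_comm

theorem ww_eq (s : I2 → S3 →L[ℂ] ℂ) (G : S3) : (∑ J, s J ∘L hD j2 J) G =
    (∑ J, (gm J : ℂ) • s J) (dD (j2 va) (dD (j2 va) G)) +
      3 * (∑ J, ((la J.1 * la J.2 : ℝ) : ℂ) • s J) (bD j2 G) := by
  simp only [hD, ContinuousLinearMap.sum_apply, ContinuousLinearMap.comp_apply,
    ContinuousLinearMap.mul_apply, ContinuousLinearMap.add_apply, ContinuousLinearMap.smul_apply,
    map_add, map_smul, smul_eq_mul, Finset.mul_sum, ← Finset.sum_add_distrib]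
  refine Finset.sum_congr rfl fun J _ => ?_
  push_cast
  ring

theorem sum3c {ι : Type} [Fintype ι] (F : ι → ι → ι → ι → ι → ι → ℂ) :
    ∑ I, ∑ J, ∑ K, ∑ I', ∑ J', ∑ K', F I J K I' J' K' =
      ∑ I', ∑ J', ∑ K', ∑ I, ∑ J, ∑ K, F I J K I' J' K' := by
  simpa only [Fintype.sum_prod_type] using Finset.sum_comm (s := Finset.univ) (t := Finset.univ)
    (f := fun p q : ι × ι × ι => F p.1 p.2.1 p.2.2 q.1 q.2.1 q.2.2)

/-- invariance under a map that commutes with the operators -/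
theorem tX_inv {A : I2 → I2 → ℂ} (h1 : ∀ K, ∑ I, A K I * (gm I : ℂ) = gm K)
    (h2 : ∀ K, ∑ I, A K I * (aa I : ℂ) = aa K) (hu : ∀ K, ∑ I, A K I * (u I : ℂ) = u K) {F G : S3}
    (h : ∀ I J K, t I J K (hD j1 I (hD j3 K F)) =
      ∑ I', ∑ J', ∑ K', A I' I * A J' J * A K' K * t I' J' K' (hD j1 I (hD j3 K G))) :
    tX t u F = tX t u G := by
  have e : ∀ I' J' K', (u J' : ℂ) * t I' J' K' (hD j1 I' (hD j3 K' G)) = ∑ I, ∑ J, ∑ K,
      u J * (A I' I * A J' J * A K' K * t I' J' K' (hD j1 I (hD j3 K G))) := fun I' J' K' => by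
    rw [← hD_inv h1 h2 j1 I', ← hD_inv h1 h2 j3 K', ← hu J']
    simp only [ContinuousLinearMap.sum_apply, ContinuousLinearMap.smul_apply, map_sum, map_smul,
      smul_eq_mul, Finset.mul_sum, Finset.sum_mul]
    refine Finset.sum_comm.trans (Finset.sum_congr rfl fun I _ => Finset.sum_comm.trans
      (Finset.sum_congr rfl fun J _ => Finset.sum_congr rfl fun K _ => by ring))
  simp only [tX_apply, h, e, Finset.mul_sum]
  exact sum3c _

theorem tX_Inv (hu : u = gm ∨ u = aa)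
    (lga : ∀ w : R2, ∃ L, IsLor L ∧ ∀ z, sim 1 L 0 z = gap w z)
    (cov : ∀ L a I J K (F G : S3), IsLor L →
      (∀ x y z, G (x, y, z) = F (sim 1 L a x, sim 1 L a y, sim 1 L a z)) →
      t I J K F = ∑ I', ∑ J', ∑ K', L2 L I' I * L2 L J' J * L2 L K' K * t I' J' K' G) :
    Inv (tX t u) := by
  have key : ∀ L a (B : V →L[ℝ] V) (F G : S3), IsLor L → (∀ m, be (L m) = eta m * va m) →
      (∀ z, sim 1 L a z = B z + a) → (∀ e : V →L[ℝ] Yz.V3, ∀ I, hD (e ∘L B) I = hD e I) →
      (∀ x y z, G (x, y, z) = F (B x + a, B y + a, B z + a)) → tX t u F = tX t u G := by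
    intro L a B F G hL ha hs hB h
    have h1 : ∀ K, ∑ I, L2 L K I * (gm I : ℂ) = gm K := by simpa only [gm_eq] using ue_inv hL
    have h2 : ∀ K, ∑ I, L2 L K I * (aa I : ℂ) = aa K := ua_inv ha
    refine tX_inv h1 h2 (by rcases hu with rfl | rfl; exacts [h1, h2]) fun I J K =>
      cov L a I J K _ _ hL fun x y z => ?_
    rw [hs, hs, hs, ← hB j1, ← hB j3]
    have := hD_aff (e := j1 ∘L B) (e' := j1) (IXH.tr3 B) (a, a, a)
      (fun v => by simp [IXH.tr3, j1, Prod.map]) I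
      (hD_aff (e := j3 ∘L B) (e' := j3) (F := F) (F' := G) (IXH.tr3 B) (a, a, a)
        (fun v => by simp [IXH.tr3, j3, i2, Prod.map]) K fun z => h _ _ _) (x, y, z)
    rw [hB, hB] at this ⊢
    exact this
  refine ⟨fun a F G h => key _ a (.id ℝ V) F G H496.isLor_one IXH.be_bas (IXH.sim_one a)
    (fun e I => rfl) h, fun w F G h => ?_⟩
  obtain ⟨L, hL, hs⟩ := lga w
  exact key L 0 (gapL w) F G hL (fun m => by
    rw [← IXH.be_bas, ← be_gap (z := bas m 1) (u := w), ← hs, IXH.sim_bas])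
    (fun z => by rw [hs, add_zero, gapL_apply]) (hD_gap · w) fun x y z => by simpa using h x y z

end

end Vale.Agent.P352L.Fx
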