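import Vale.Agent.P352X.R.YZ
import Vale.Agent.P352L.F.IX
import Vale.Agent.P352L.Spec2

/-!
# P352L, block F: reduction of the middle leg (helper72)
-/

set_option linter.all false

open MeasureTheory Filter Topology Set Function
open scoped SchwartzMap ComplexConjugate ContDiff

namespace Vale.Agent.P352L.Fx

open Vale.Agent.P352 Vale.Agent.P352.GF Vale.Agent.P352.BW Vale.Agent.P352.H246
open Vale.Agent.P352.H496 Vale.Agent.P352.H755 Vale.Agent.P352.H15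
open Vale.Agent.P352X Ap
open Yz (V3 s1 s2 tst_sw3 tst_mid Fl apx err tri uu tst_t tst_uu ex_k ex_r)
open IXH (da di tst_da tst_di)

noncomputable section

/-! ### the functional on real functions -/

/-- `Λ` on real functions -/
def ta (Λ : S3 →L[ℂ] ℂ) (F : V3 → ℝ) : ℂ := Λ (sch fun z => (F z : ℂ))

variable {Λ Λ0 Λθ ΛW : S3 →L[ℂ] ℂ} {F G : V3 → ℝ}

theorem ta_add (hF : Tst F) (hG : Tst G) : ta Λ (fun z => F z + G z) = ta Λ F + ta Λ G := by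
  simp only [ta, Complex.ofReal_add, sch_add (tst_sw hF) (tst_sw hG), map_add]

theorem ta_mul (a : ℝ) (hF : Tst F) : ta Λ (fun z => a * F z) = a * ta Λ F := by
  simp only [ta, Complex.ofReal_mul, sch_cmul _ (tst_sw hF), map_smul, smul_eq_mul]

theorem ta_sum {ι : Type} {s : Finset ι} {F : ι → V3 → ℝ} (hF : ∀ i, Tst (F i)) :
    ta Λ (fun z => ∑ i ∈ s, F i z) = ∑ i ∈ s, ta Λ (F i) := by
  simp only [ta, Complex.ofReal_sum, sch_sum fun i _ => tst_sw (hF i), map_sum]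

/-! ### weights -/

/-- weight times outer legs times middle leg -/
def TT (W : V3 → ℝ) (Ψ : V × V → ℝ) (g : P3 → ℝ) (R : ℝ → ℝ) (L : ℝ) (z : V3) : ℝ :=
  W z * (Ψ (z.1, z.2.2) * (kL g L (pl z.2.1) * R (be z.2.1)))

section wt

variable {W W' : V3 → ℝ} {Ψ : V × V → ℝ} {g : P3 → ℝ} {R : ℝ → ℝ} {L : ℝ} {p n : ℕ}

theorem tst_TT (hW : ContDiff ℝ ∞ W) (hΨ : Tst Ψ) (hg : Tst g) (hR : Tst R) (hL : 0 < L) :
    Tst (TT W Ψ g R L) := tst_mid hW hΨ (tst_pr (tst_kL hg hL) hR)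

/-- weights of degree `n` in the transverse coordinate of the middle point -/
def PP (Λ : S3 →L[ℂ] ℂ) (p n : ℕ) (W : V3 → ℝ) : Prop := ContDiff ℝ ∞ W ∧
  ∀ (Ψ : V × V → ℝ) (g : P3 → ℝ) (R : ℝ → ℝ), Tst Ψ → Tst g → (0 : P3) ∉ tsupport g → Tst R →
    Tendsto (fun L : ℝ => ((L ^ p / Real.sqrt L ^ n : ℝ) : ℂ) * ta Λ (TT W Ψ g R L)) atTop (𝓝 0)

theorem pp0 (h : Far0 Λ p) : PP Λ p 0 fun _ => 1 :=
  ⟨contDiff_const, fun Ψ g R h1 h2 h3 h4 => by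
    simpa only [ta, TT, X, pr, cx, pow_zero, div_one, one_mul, Complex.ofReal_mul,
      Complex.ofReal_pow] using h g R (cx Ψ) h2 h3 h4 (dc_cx h1)⟩

theorem PP.add (h : PP Λ p n W) (h' : PP Λ p n W') : PP Λ p n fun z => W z + W' z := by
  refine ⟨h.1.add h'.1, fun Ψ g R h1 h2 h3 h4 => ?_⟩
  have := (h.2 Ψ g R h1 h2 h3 h4).add (h'.2 Ψ g R h1 h2 h3 h4)
  rw [add_zero] at this
  refine this.congr' ((eventually_gt_atTop 0).mono fun L hL => ?_)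
  beta_reduce
  rw [← mul_add, ← ta_add (tst_TT h.1 h1 h2 h4 hL) (tst_TT h'.1 h1 h2 h4 hL)]
  simp only [TT, ← add_mul]
  rfl

theorem PP.smul (h : PP Λ p n W) (a : ℝ) : PP Λ p n fun z => a * W z := by
  refine ⟨contDiff_const.mul h.1, fun Ψ g R h1 h2 h3 h4 => ?_⟩
  have := (h.2 Ψ g R h1 h2 h3 h4).const_mul (a : ℂ)
  rw [mul_zero] at this
  refine this.congr' ((eventually_gt_atTop 0).mono fun L hL => ?_)
  beta_reduce
  rw [mul_left_comm, ← ta_mul a (tst_TT h.1 h1 h2 h4 hL)]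
  congr 2
  funext z
  simp only [TT, mul_assoc]

theorem PP.sh (h : PP Λ p n W) : PP Λ (p + 1) (n + 2) W :=
  ⟨h.1, fun Ψ g R h1 h2 h3 h4 => (h.2 Ψ g R h1 h2 h3 h4).congr'
    ((eventually_gt_atTop 0).mono fun L hL => by
      beta_reduce
      rw [pow_succ, pow_add, Real.sq_sqrt hL.le, mul_div_mul_right _ _ hL.ne'])⟩

theorem pp_zero : PP Λ p n fun _ => 0 := ⟨contDiff_const, fun Ψ g R _ _ _ _ => by
  have : ∀ L, ta Λ (TT (fun _ => 0) Ψ g R L) = 0 := fun L => by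
    simp only [ta, TT, zero_mul, Complex.ofReal_zero, sch_zero, map_zero]
  simp only [this, mul_zero, tendsto_const_nhds]⟩

/-- linear factors -/
def Ln (i : Fin 2) (l : V3 →L[ℝ] ℝ) : Prop :=
  ∃ a : V × V →L[ℝ] ℝ, ∀ z, l z = tx z.2.1 i - a (z.1, z.2.2)

theorem PP.mul (h : PP Λ p n W) {i : Fin 2} {l : V3 →L[ℝ] ℝ} (hl : Ln i l) :
    PP Λ p (n + 1) fun z => l z * W z := by
  obtain ⟨a, hl⟩ := hl
  refine ⟨l.contDiff.mul h.1, fun Ψ g R h1 h2 h3 hR => ?_⟩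
  have h4 : Tst fun y : P3 => y.2 i * g y := cs_mul_l (by fun_prop) h2
  have h5 : Tst fun y => a y * Ψ y := cs_mul_l a.contDiff h1
  have s : Tendsto (fun L : ℝ => (((Real.sqrt L)⁻¹ : ℝ) : ℂ)) atTop (𝓝 0) :=
    (Complex.continuous_ofReal.tendsto 0).comp (tendsto_inv_atTop_zero.comp Real.tendsto_sqrt_atTop)
  have := (h.2 Ψ _ R h1 h4 (fun k => h3 (tsupport_mul_subset_right k)) hR).sub
    (s.mul (h.2 _ g R h5 h2 h3 hR))
  rw [mul_zero, sub_zero] at this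
  refine this.congr' ((eventually_gt_atTop 0).mono fun L hL => ?_)
  have k := tst_TT h.1 h1 h4 hR hL
  have k' := tst_TT h.1 h5 h2 hR hL
  have q := (Real.sqrt_pos.2 hL).ne'
  have q' : ((Real.sqrt L : ℝ) : ℂ) ≠ 0 := Complex.ofReal_ne_zero.2 q
  have e := ta_add (Λ := Λ) (cs_cmul (Real.sqrt L) k) (cs_cmul (-1) k')
  rw [ta_mul _ k, ta_mul _ k'] at e
  beta_reduce
  rw [show TT (fun z => l z * W z) Ψ g R L = _ from funext fun z => ?_, e]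
  · push_cast
    field_simp
    ring
  · simp only [TT, hl, kL, pl, Pi.smul_apply, smul_eq_mul]
    field_simp
    ring

/-- polynomial weights -/
def Pw (n : ℕ) (W : V3 → ℝ) : Prop := ∀ Λ p, PP Λ p 0 (fun _ => 1) → PP Λ p n W

/-- weights that depend on the middle point through `x2` only, with their derivatives -/
structure Dw (W : V3 → ℝ) (W1 W2 : Fin 2 → V3 → ℝ) : Prop where
  s0 : ContDiff ℝ ∞ W
  s1 : ∀ i, ContDiff ℝ ∞ (W1 i)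
  s2 : ∀ i, ContDiff ℝ ∞ (W2 i)
  da : ∀ z, fderiv ℝ W z (j2 va) = 0
  db : ∀ z, fderiv ℝ W z (j2 vb) = 0
  d1 : ∀ i z, fderiv ℝ W z (j2 (ex i)) = W1 i z
  d2 : ∀ i z, fderiv ℝ (W1 i) z (j2 (ex i)) = W2 i z

/-- polynomial weights with their derivatives -/
structure J2 (n : ℕ) (W : V3 → ℝ) (W1 W2 : Fin 2 → V3 → ℝ) : Prop extends Dw W W1 W2 where
  p0 : Pw (n + 1) W
  p1 : ∀ i, Pw n (W1 i)

theorem dw_one : Dw (fun _ => 1) (fun _ _ => 0) fun _ _ => 0 :=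
  ⟨contDiff_const, fun _ => contDiff_const, fun _ => contDiff_const, fun _ => by simp,
    fun _ => by simp, fun _ _ => by simp, fun _ _ => by simp⟩

variable {W1 W2 W1' W2' : Fin 2 → V3 → ℝ} {i : Fin 2} {l : V3 →L[ℝ] ℝ}

theorem Ln.j2 (h : Ln i l) (v : V) : l (j2 v) = tx v i := by
  obtain ⟨a, h⟩ := h
  rw [h]
  exact sub_eq_self.2 (map_zero a)

theorem fd_mul (hW : ContDiff ℝ ∞ W) (l : V3 →L[ℝ] ℝ) (z v : V3) :
    fderiv ℝ (fun z => l z * W z) z v = l v * W z + l z * fderiv ℝ W z v := by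
  refine (congrArg (· v) (l.hasFDerivAt.mul (hW.differentiable (by simp) z).hasFDerivAt).fderiv).trans ?_
  simp [mul_comm, add_comm]

theorem fd_add (hW : ContDiff ℝ ∞ W) (hW' : ContDiff ℝ ∞ W') (a b : ℝ) (z v : V3) :
    fderiv ℝ (fun z => a * W z + b * W' z) z v = a * fderiv ℝ W z v + b * fderiv ℝ W' z v := by
  refine (congrArg (· v) (((hW.differentiable (by simp) z).hasFDerivAt.const_mul a).add
    ((hW'.differentiable (by simp) z).hasFDerivAt.const_mul b)).fderiv).trans ?_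
  simp

theorem j2_base (hl : Ln i l) : J2 0 l (fun j _ => e2 j i * 1) fun _ _ => 0 where
  s0 := l.contDiff
  s1 _ := contDiff_const
  s2 _ := contDiff_const
  da z := by rw [l.fderiv, hl.j2, tx_va]; rfl
  db z := by rw [l.fderiv, hl.j2, tx_vb]; rfl
  d1 j z := by rw [l.fderiv, hl.j2, tx_ex, mul_one]
  d2 j z := by simp
  p0 Λ p h := by simpa only [mul_one] using h.mul hl
  p1 j Λ p h := h.smul _

theorem J2.mul (h : J2 n W W1 W2) (hl : Ln i l) : J2 (n + 1) (fun z => l z * W z)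
    (fun j z => e2 j i * W z + 1 * (l z * W1 j z)) fun j z => 2 * e2 j i * W1 j z + l z * W2 j z where
  s0 := l.contDiff.mul h.s0
  s1 j := (contDiff_const.mul h.s0).add (contDiff_const.mul (l.contDiff.mul (h.s1 j)))
  s2 j := (contDiff_const.mul (h.s1 j)).add (l.contDiff.mul (h.s2 j))
  da z := by simp [fd_mul h.s0, hl.j2, h.da]
  db z := by simp [fd_mul h.s0, hl.j2, h.db]
  d1 j z := by simp [fd_mul h.s0, hl.j2, h.d1]
  d2 j z := by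
    rw [fd_add h.s0 (l.contDiff.mul (h.s1 j)), fd_mul (h.s1 j), hl.j2, h.d1, h.d2, tx_ex]
    ring
  p0 Λ p k := (h.p0 Λ p k).mul hl
  p1 j Λ p k := ((h.p0 Λ p k).smul _).add (((h.p1 j Λ p k).mul hl).smul _)

theorem J2.add (h : J2 n W W1 W2) (h' : J2 n W' W1' W2') (a b : ℝ) :
    J2 n (fun z => a * W z + b * W' z) (fun j z => a * W1 j z + b * W1' j z)
      fun j z => a * W2 j z + b * W2' j z where
  s0 := (contDiff_const.mul h.s0).add (contDiff_const.mul h'.s0)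
  s1 j := (contDiff_const.mul (h.s1 j)).add (contDiff_const.mul (h'.s1 j))
  s2 j := (contDiff_const.mul (h.s2 j)).add (contDiff_const.mul (h'.s2 j))
  da z := by simp [fd_add h.s0 h'.s0, h.da, h'.da]
  db z := by simp [fd_add h.s0 h'.s0, h.db, h'.db]
  d1 j z := by rw [fd_add h.s0 h'.s0, h.d1, h'.d1]
  d2 j z := by rw [fd_add (h.s1 j) (h'.s1 j), h.d2, h'.d2]
  p0 Λ p k := ((h.p0 Λ p k).smul _).add ((h'.p0 Λ p k).smul _)
  p1 j Λ p k := ((h.p1 j Λ p k).smul _).add ((h'.p1 j Λ p k).smul _)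

open ContinuousLinearMap (fst snd proj) in
/-- `(x2 - x1)_i` -/
def lu (i : Fin 2) : V3 →L[ℝ] ℝ :=
  proj i ∘L txL ∘L (fst ℝ V V ∘L snd ℝ V (V × V) - fst ℝ V (V × V))

open ContinuousLinearMap (fst snd proj) in
/-- `(x2 - x3)_i` -/
def lv (i : Fin 2) : V3 →L[ℝ] ℝ :=
  proj i ∘L txL ∘L (fst ℝ V V ∘L snd ℝ V (V × V) - snd ℝ V V ∘L snd ℝ V (V × V))

theorem lu_apply (i : Fin 2) (z : V3) : lu i z = tx z.2.1 i - tx z.1 i := by simp [lu]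

theorem lv_apply (i : Fin 2) (z : V3) : lv i z = tx z.2.1 i - tx z.2.2 i := by simp [lv]

theorem ln_u (i : Fin 2) : Ln i (lu i) :=
  ⟨(ContinuousLinearMap.proj i : R2 →L[ℝ] ℝ) ∘L txL ∘L .fst ℝ V V, fun z => lu_apply i z⟩

theorem ln_v (i : Fin 2) : Ln i (lv i) :=
  ⟨(ContinuousLinearMap.proj i : R2 →L[ℝ] ℝ) ∘L txL ∘L .snd ℝ V V, fun z => lv_apply i z⟩

/-- the weight of degree four -/
def W4 (z : V3) : ℝ := q4 (tx z.2.1 - tx z.1) (tx z.2.1 - tx z.2.2)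

theorem j2_W4 : ∃ W1 W2, J2 3 W4 W1 W2 ∧
    ∀ z, d2 (tx z.2.1 - tx z.1) (tx z.2.1 - tx z.2.2) = 1 / 16 * W2 0 z + 1 / 16 * W2 1 z := by
  have m := fun i j k l => (((j2_base (ln_v l)).mul (ln_v k)).mul (ln_u j)).mul (ln_u i)
  have h := ((((m 0 0 0 0).add (m 0 0 1 1) 1 (-1)).add ((m 1 1 1 1).add (m 1 1 0 0) 1 (-1)) 1 1).add
    (m 0 1 0 1) 1 4)
  refine ⟨_, _, (congrArg (fun W => J2 3 W _ _) (funext fun z => ?_)).mpr h, fun z => ?_⟩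
  · simp only [W4, q4, lu_apply, lv_apply, Pi.sub_apply]
    ring
  · simp only [d2, lu_apply, lv_apply, Pi.sub_apply, e2, Pi.single_eq_same, ne_eq, zero_ne_one,
      one_ne_zero, not_false_eq_true, Pi.single_eq_of_ne]
    ring

/-! ### derivatives in the middle slot -/

/-- the Schwartz function of `TT` -/
def sT (W : V3 → ℝ) (Ψ : V × V → ℝ) (g : P3 → ℝ) (R : ℝ → ℝ) (L : ℝ) : S3 :=
  sch fun z => (TT W Ψ g R L z : ℂ)

theorem sT_apply (hW : ContDiff ℝ ∞ W) (hΨ : Tst Ψ) (hg : Tst g) (hR : Tst R) (hL : 0 < L) (z : V3) :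
    sT W Ψ g R L z = TT W Ψ g R L z := sch_tst (tst_TT hW hΨ hg hR hL) z

theorem dD_sT (hW : ContDiff ℝ ∞ W) (hΨ : Tst Ψ) (hg : Tst g) (hR : Tst R) (hL : 0 < L) (v : V)
    (z : V3) : dD (j2 v) (sT W Ψ g R L) z = (fderiv ℝ W z (j2 v) * (Ψ (z.1, z.2.2) *
      (kL g L (pl z.2.1) * R (be z.2.1))) + W z * (Ψ (z.1, z.2.2) *
        (fderiv ℝ (kL g L) (pl z.2.1) (pl v) * R (be z.2.1) +
          kL g L (pl z.2.1) * (be v * deriv R (be z.2.1)))) : ℝ) := by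
  have t := tst_TT hW hΨ hg hR hL
  rw [dD_eq, show ⇑(sT W Ψ g R L) = cx (TT W Ψ g R L) from funext (sch_tst t),
    fderiv_cx (t.1.differentiable (by simp) z)]
  have h1 := (hW.differentiable (by simp) z).hasFDerivAt
  have h2 := (hΨ.1.differentiable (by simp) (z.1, z.2.2)).hasFDerivAt.comp z
    (f := fun z : V3 => (z.1, z.2.2)) (hasFDerivAt_fst.prodMk hasFDerivAt_snd.snd)
  have h3 := ((smooth_kL hg.1 L).differentiable (by simp) (pl z.2.1)).hasFDerivAt.comp z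
    (f := fun z : V3 => pl z.2.1) (plL.hasFDerivAt.comp z hasFDerivAt_snd.fst)
  have h4 := (hR.1.differentiable (by simp) (be z.2.1)).hasDerivAt.hasFDerivAt.comp z
    (f := fun z : V3 => be z.2.1) (beL.hasFDerivAt.comp z hasFDerivAt_snd.fst)
  refine congrArg _ ((congrArg (· (j2 v)) (h1.mul (h2.mul (h3.mul h4))).fderiv).trans ?_)
  simp [j2, i1, Prod.mk_zero_zero]
  ring

theorem sT_a (hW : ContDiff ℝ ∞ W) (h : ∀ z, fderiv ℝ W z (j2 va) = 0) (hΨ : Tst Ψ) (hg : Tst g)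
    (hR : Tst R) (hL : 0 < L) :
    dD (j2 va) (sT W Ψ g R L) = ((L⁻¹ : ℝ) : ℂ) • sT W Ψ (da g) R L := by
  ext z
  rw [dD_sT hW hΨ hg hR hL, SchwartzMap.smul_apply, sT_apply hW hΨ (tst_da hg) hR hL, h, pl_va,
    da_kL (hg.1.differentiable (by simp)), be_va, smul_eq_mul, ← Complex.ofReal_mul]
  congr 1
  simp only [TT]
  change _ = _ * (_ * (_ * (kL (fun y => fderiv ℝ g y (1, 0)) L _ * _)))
  ring

theorem sT_b (hW : ContDiff ℝ ∞ W) (h : ∀ z, fderiv ℝ W z (j2 vb) = 0) (hΨ : Tst Ψ) (hg : Tst g)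
    (hR : Tst R) (hL : 0 < L) : dD (j2 vb) (sT W Ψ g R L) = sT W Ψ g (deriv R) L := by
  ext z
  rw [dD_sT hW hΨ hg hR hL, sT_apply hW hΨ hg (cs_deriv hR) hL, h, pl_vb, map_zero, be_vb]
  congr 1
  simp only [TT]
  ring

theorem sT_i (hW : ContDiff ℝ ∞ W) (hW' : ContDiff ℝ ∞ W') (h : ∀ z, fderiv ℝ W z (j2 (ex i)) = W' z)
    (hΨ : Tst Ψ) (hg : Tst g) (hR : Tst R) (hL : 0 < L) : dD (j2 (ex i)) (sT W Ψ g R L) =
      sT W' Ψ g R L + (((Real.sqrt L)⁻¹ : ℝ) : ℂ) • sT W Ψ (di i g) R L := by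
  ext z
  rw [dD_sT hW hΨ hg hR hL, SchwartzMap.add_apply, SchwartzMap.smul_apply,
    sT_apply hW hΨ (tst_di i hg) hR hL, sT_apply hW' hΨ hg hR hL, h, ex, pl_tv, ← dx,
    dx_kL (hg.1.differentiable (by simp)), be_tv, smul_eq_mul, ← Complex.ofReal_mul,
    ← Complex.ofReal_add]
  congr 1
  simp only [TT]
  change _ = _ + _ * (_ * (_ * (kL (fun y => dx g y (e2 i)) L _ * _)))
  ring

theorem dD_sy {E : Type*} [NormedAddCommGroup E] [NormedSpace ℝ E] (e : V →L[ℝ] E) (h : V) :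
    dD (e h) = sy e (∑ m, (h m : ℂ) • MvPolynomial.X m) := by
  simp only [dD_slot, map_sum, map_smul, sy_X]

theorem bD_null {E : Type*} [NormedAddCommGroup E] [NormedSpace ℝ E] (e : V →L[ℝ] E) :
    bD e = (2 : ℂ) • (dD (e va) * dD (e vb)) - ∑ i, dD (e (ex i)) * dD (e (ex i)) := by
  simp only [bD_sy, dD_sy, ← map_mul, ← map_smul, ← map_sum, ← map_sub]
  refine sy_ext e fun p => ?_
  simp only [map_add, map_smul, map_mul, map_sum, map_sub, MvPolynomial.aeval_X, smul_eq_mul]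
  simp [Fin.sum_univ_four, va, vb, ex, tv, pt, e2, eta, o]
  ring

/-- **Reduction of the middle leg.** -/
theorem red (hW : ∀ G, ΛW G = Λθ (dD (j2 va) (dD (j2 va) G)) + 3 * Λ0 (bD j2 G))
    (h : Dw W W1 W2) (pθ : PP Λθ 0 n W) (p0 : PP Λ0 1 n W) (p1 : ∀ i, PP Λ0 2 (n + 1) (W1 i))
    (hΨ : Tst Ψ) (hg : Tst g) {a : ℝ} (g0 : ∀ᶠ y in 𝓝 0, g y = a) (hR : Tst R) :
    Tendsto (fun L : ℝ => ((L ^ 2 / Real.sqrt L ^ n : ℝ) : ℂ) *
      (ta ΛW (TT W Ψ g R L) + 3 * ∑ i, ta Λ0 (TT (W2 i) Ψ g R L))) atTop (𝓝 0) := by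
  have a0 : (0 : P3) ∉ tsupport (da g) := notMem_fd g0 fun _ => (1, 0)
  have i0 : ∀ i, (0 : P3) ∉ tsupport (di i g) := fun i => notMem_fd g0 fun _ => (0, e2 i)
  have l1 := pθ.2 Ψ _ R hΨ (tst_da (tst_da hg)) (fun k => a0 (tsupport_fd _ _ k)) hR
  have l2 := p0.2 Ψ _ _ hΨ (tst_da hg) a0 (cs_deriv hR)
  have l3 := fun i => (p1 i).2 Ψ _ R hΨ (tst_di i hg) (i0 i) hR
  have l4 := fun i => p0.2 Ψ _ R hΨ (tst_di i (tst_di i hg)) (fun k => i0 i (tsupport_fd _ _ k)) hR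
  have := (l1.add (l2.const_mul 6)).sub ((((l3 0).add (l3 1)).const_mul 6).add
    (((l4 0).add (l4 1)).const_mul 3))
  simp only [mul_zero, add_zero, sub_zero] at this
  refine this.congr' ((eventually_gt_atTop 0).mono fun L hL => ?_)
  have e : ∀ i, dD (j2 (ex i)) (dD (j2 (ex i)) (sT W Ψ g R L)) = _ := fun i => by
    rw [sT_i h.s0 (h.s1 i) (h.d1 i) hΨ hg hR hL, map_add, map_smul,
      sT_i (h.s1 i) (h.s2 i) (h.d2 i) hΨ hg hR hL,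
      sT_i h.s0 (h.s1 i) (h.d1 i) hΨ (tst_di i hg) hR hL]
  change _ = _ * (ΛW (sT W Ψ g R L) + 3 * ∑ i, Λ0 (sT (W2 i) Ψ g R L))
  simp only [hW, bD_null, ContinuousLinearMap.sub_apply, ContinuousLinearMap.smul_apply,
    ContinuousLinearMap.add_apply, ContinuousLinearMap.mul_apply, e, Fin.sum_univ_two,
    sT_b h.s0 h.db hΨ hg hR hL, sT_a h.s0 h.da hΨ hg hR hL, sT_a h.s0 h.da hΨ (tst_da hg) hR hL,
    sT_a h.s0 h.da hΨ hg (cs_deriv hR) hL, map_add, map_sub, map_smul, smul_eq_mul, ta]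
  simp only [sT]
  obtain ⟨s, hs, rfl⟩ : ∃ s : ℝ, 0 < s ∧ L = s * s :=
    ⟨_, Real.sqrt_pos.2 hL, (Real.mul_self_sqrt hL.le).symm⟩
  have hs' : (s : ℂ) ≠ 0 := Complex.ofReal_ne_zero.2 hs.ne'
  simp only [Real.sqrt_mul_self hs.le]
  push_cast
  field_simp
  ring

end wt

/-- the residue vanishes -/
def Res (Λ : S3 →L[ℂ] ℂ) : Prop := ∀ (ρ1 κ2 κ3 : P3 → ℝ) (ρ2 θ1 θ3 : ℝ → ℝ) (G : S3), Tst ρ1 →
  Tst κ2 → Tst κ3 → Tst ρ2 → Tst θ1 → Tst θ3 →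
  (∀ y ∈ tsupport ρ1, (∀ᶠ x in 𝓝 y, κ2 x = 1) ∧ ∀ᶠ x in 𝓝 y, κ3 x = 1) →
  (∀ t ∈ tsupport ρ2, (∀ᶠ x in 𝓝 t, θ1 x = 1) ∧ ∀ᶠ x in 𝓝 t, θ3 x = 1) →
  (∀ z1 z2 z3, G (z1, z2, z3) = ((PhW z1 z2 z3 * ρ1 (pl z1) * ρ2 (be z2) *
    (2 * (be z1 - be z2) * deriv θ1 (be z1) * θ3 (be z3) * κ2 (pl z2) * κ3 (pl z3) +
      2 * (be z3 - be z2) * θ1 (be z1) * deriv θ3 (be z3) * κ2 (pl z2) * κ3 (pl z3) +
      θ1 (be z1) * θ3 (be z3) * dx κ2 (pl z2) (tx z2 - tx z1) * κ3 (pl z3) +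
      θ1 (be z1) * θ3 (be z3) * κ2 (pl z2) * dx κ3 (pl z3) (tx z3 - tx z1)) : ℝ) : ℂ)) →
  Λ G = 0

/-- the boundary terms of the outer legs -/
def bT (ρ1 κ κ3 : P3 → ℝ) (ρ θ ϑ : ℝ → ℝ) (L : ℝ) (z : V3) : ℝ :=
  Ph6 z.1 z.2.1 z.2.2 * ρ1 (pl z.1) * ρ (be z.2.1) * kL κ L (pl z.2.1) *
    (2 * (be z.1 - be z.2.1) * deriv θ (be z.1) * ϑ (be z.2.2) * κ3 (pl z.2.2) +
      2 * (be z.2.2 - be z.2.1) * θ (be z.1) * deriv ϑ (be z.2.2) * κ3 (pl z.2.2) +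
      θ (be z.1) * ϑ (be z.2.2) * dx κ3 (pl z.2.2) (tx z.2.2 - tx z.1))

theorem wred (hW : ∀ G, ΛW G = Λθ (dD (j2 va) (dD (j2 va) G)) + 3 * Λ0 (bD j2 G))
    (fθ : Far0 Λθ 0) (f0 : Far0 Λ0 1) (hR : Res ΛW) {ρ1 κ κ3 : P3 → ℝ} {ρ θ ϑ : ℝ → ℝ} (h1 : Tst ρ1)
    (hκ : Cut κ) (h3 : Tst κ3) (hρ : Tst ρ) (hθ : Tst θ) (hϑ : Tst ϑ)
    (o1 : ∀ y ∈ tsupport ρ1, ∀ᶠ x in 𝓝 y, κ3 x = 1)
    (o2 : ∀ t ∈ tsupport ρ, (∀ᶠ x in 𝓝 t, θ x = 1) ∧ ∀ᶠ x in 𝓝 t, ϑ x = 1) :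
    Tendsto (fun L => ta Λ0 (bT ρ1 κ κ3 ρ θ ϑ L)) atTop (𝓝 0) := by
  obtain ⟨W1, W2, J, e⟩ := j2_W4
  have pW : PP ΛW 2 0 fun _ => 1 := ⟨contDiff_const, fun Ψ g R a1 a2 a3 a4 => by
    have := red hW dw_one (pp0 fθ) (pp0 f0) (fun _ => pp_zero) a1 a2
      (notMem_tsupport_iff_eventuallyEq.1 a3) a4
    simpa only [ta, TT, zero_mul, Complex.ofReal_zero, sch_zero, map_zero, Finset.sum_const_zero,
      mul_zero, add_zero] using this⟩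
  have hθ' := cs_deriv hθ
  have hϑ' := cs_deriv hϑ
  have hρ' : Tst fun t => t * ρ t := cs_mul_l contDiff_id hρ
  have t0 : ∀ {u : V × V → ℝ} {θ1 θ3 : ℝ → ℝ} {κ3 : P3 → ℝ}, ContDiff ℝ ∞ u → Tst θ1 → Tst θ3 →
      Tst κ3 → Tst fun y : V × V => u y * (ρ1 (pl y.1) * θ1 (be y.1) * (κ3 (pl y.2) * θ3 (be y.2))) :=
    fun a b c d => cs_mul_l a (cs_prod (tst_pr h1 b) (tst_pr d c))
  have tA := cs_add (cs_add
    (t0 (u := fun y => (al y.1 - al y.2) ^ 6 * (2 * be y.1)) (by fun_prop) hθ' hϑ h3)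
    (t0 (u := fun y => (al y.1 - al y.2) ^ 6 * (2 * be y.2)) (by fun_prop) hθ hϑ' h3))
    (cs_sum (s := Finset.univ) fun i _ =>
      t0 (u := fun y => (al y.1 - al y.2) ^ 6 * (tx y.2 i - tx y.1 i)) (by fun_prop) hθ hϑ
        (tst_di i h3))
  have tB := cs_add (t0 (u := fun y => (al y.1 - al y.2) ^ 6 * -2) (by fun_prop) hθ' hϑ h3)
    (t0 (u := fun y => (al y.1 - al y.2) ^ 6 * -2) (by fun_prop) hθ hϑ' h3)
  have tC := t0 (u := fun y => (al y.1 - al y.2) ^ 6) (by fun_prop) hθ hϑ h3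
  have r := fun {Ψ R} a b => red (Ψ := Ψ) (R := R) hW J.toDw (J.p0 _ _ (pp0 fθ)) (J.p0 _ _ (pp0 f0))
    (fun i => (J.p1 i _ _ (pp0 f0)).sh) a hκ.1 hκ.2 b
  have p5 := fun i => (J.p0 _ _ pW).mul (ln_u i)
  have l := fun i => (p5 i).2 _ _ ρ tC (tst_di i hκ.1) (notMem_fd hκ.2 fun _ => (0, e2 i)) hρ
  have := (((r tA hρ).add (r tB hρ')).add ((l 0).add (l 1))).const_mul (1 / 48)
  simp only [add_zero, mul_zero] at this
  refine this.congr' ?_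
  filter_upwards [eventually_gt_atTop 0, kL_one_on hκ h1.2.isCompact.isBounded] with L hL b
  have u1 := tst_TT J.s0 tA hκ.1 hρ hL
  have u2 := tst_TT J.s0 tB hκ.1 hρ' hL
  have u3 := fun i => tst_TT (p5 i).1 tC (tst_di i hκ.1) hρ hL
  have u4 := fun i => cs_cmul (Real.sqrt L)⁻¹ (u3 i)
  have u5 := cs_add (cs_add u1 u2) (cs_add (u4 0) (u4 1))
  have z : ta ΛW _ = 0 := hR ρ1 (kL κ L) κ3 ρ θ ϑ _ h1 (tst_kL hκ.1 hL) h3 hρ hθ hϑ
    (fun y hy => ⟨b y hy, o1 y hy⟩) o2 fun z1 z2 z3 =>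
      (sch_tst u5 (z1, z2, z3)).trans (congrArg _ (by
        rw [dx_sum κ3, dx_sum (kL κ L)]
        simp only [TT, PhW, W4, lu_apply, Fin.sum_univ_two, Pi.sub_apply,
          dx_kL (hκ.1.1.differentiable (by simp))]
        unfold di
        ring))
  rw [ta_add (cs_add u1 u2) (cs_add (u4 0) (u4 1)), ta_add u1 u2, ta_add (u4 0) (u4 1),
    ta_mul _ (u3 0), ta_mul _ (u3 1)] at z
  have v1 := fun i => tst_TT (J.s2 i) tA hκ.1 hρ hL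
  have v2 := fun i => tst_TT (J.s2 i) tB hκ.1 hρ' hL
  have v3 := fun i => cs_add (v1 i) (v2 i)
  rw [show bT ρ1 κ κ3 ρ θ ϑ L = _ from funext fun z => ?_,
    ta_add (cs_cmul (1 / 16) (v3 0)) (cs_cmul (1 / 16) (v3 1)), ta_mul _ (v3 0), ta_mul _ (v3 1),
    ta_add (v1 0) (v2 0), ta_add (v1 1) (v2 1)]
  · have q : L ^ 2 = Real.sqrt L ^ 4 := by
      rw [show 4 = 2 * 2 from rfl, pow_mul, Real.sq_sqrt hL.le]
    have q' := (Real.sqrt_pos.2 hL).ne'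
    rw [q, div_self (pow_ne_zero _ q'), pow_succ _ (3 + 1), div_mul_cancel_left₀ (pow_ne_zero _ q')]
    simp only [Fin.sum_univ_two] at z ⊢
    push_cast at z ⊢
    linear_combination (1 / 48) * z
  · rw [bT, dx_sum κ3]
    simp only [TT, Ph6, e, Fin.sum_univ_two, Pi.sub_apply]
    unfold di
    ring

end

end Vale.Agent.P352L.Fx
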