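import Vale.Agent.P352L.F.Ops
import Vale.Agent.P352L.Geo
import Vale.Agent.P352L.Wt

/-!
# P352L, block F: far parts of the plane with a rate (helper72)
-/

set_option linter.all false

open MeasureTheory Filter Topology
open scoped SchwartzMap ComplexConjugate ENNReal ContDiff

namespace Vale.Agent.P352L.Fx

open Vale.Agent.P352 Vale.Agent.P352.GF Vale.Agent.P352.BW Vale.Agent.P352.H246
open Vale.Agent.P352.H496 Vale.Agent.P352.H755 Vale.Agent.P352.H15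
open Vale.Agent.P352X
open IXH (SB sn_up sn_star sn_pr gb_near)
open Far (legs sw1 sw2 dc_pr dc_tri tst_kL late_iff)
open UniformSpace (Completion)
open Complex (I)

noncomputable section

variable {D : Type*} [NormedAddCommGroup D] [InnerProductSpace ℂ D] (c : Ctx D)

/-! ## one field -/

/-- the components on the vacuum -/
def Tc (J : I2) (f : Fn) : Completion D := (c.T J.1 J.2 f c.Q.vac : D)

theorem Tv_eq (F : Ix → Ix → Fn) : c.Tv F = ∑ J : I2, Tc c J (F J.1 J.2) := by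
  simp only [Ctx.Tv, Ctx.Tf, Tc, Fintype.sum_prod_type]
  change Completion.toComplL (𝕜 := ℂ) _ = _
  simp only [map_sum]
  rfl

theorem Tc_lin (J : I2) (a : ℂ) {f g : Fn} (hf : IsTest f) (hg : IsTest g) :
    Tc c J (fun x => f x + a * g x) = Tc c J f + a • Tc c J g := by
  rw [Tc, c.Q.lin _ f g a _ (c.Q.bose_fld _ (c.hT.bose _ _)) hf hg, Completion.coe_add,
    Completion.coe_smul]
  rfl

theorem Tc_smul (J : I2) (a : ℂ) {f : Fn} (hf : IsTest f) :
    Tc c J (fun x => a * f x) = a • Tc c J f := by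
  have h0 : IsTest fun _ : V => (0 : ℂ) := ⟨0, rfl⟩
  have h1 := Tc_lin c J 1 h0 h0
  have h2 := Tc_lin c J a h0 hf
  simp only [mul_zero, add_zero, one_smul, left_eq_add, zero_add] at h1 h2
  rw [h2, h1, zero_add]

/-- `T(u) f` on the vacuum -/
def Tu (u : I2 → ℝ) (f : Fn) : Completion D := c.Tv fun m n x => (u (m, n) : ℂ) * f x

theorem Tu_eq (u : I2 → ℝ) {f : Fn} (hf : IsTest f) : Tu c u f = ∑ J, (u J : ℂ) • Tc c J f := by
  simp only [Tu, Tv_eq, Tc_smul c _ _ hf]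

theorem Tu_aa (f : Fn) : Tu c aa f = c.Tv (hk va va f) := rfl

theorem Tu_gm {f : Fn} (hf : IsTest f) : Tu c gm f = c.Th f := by
  simp only [Tu_eq c gm hf, gm_eq, IXH.sum_ue, Ctx.Th, Ctx.Thf, GF.tr]
  change _ = Completion.toComplL (𝕜 := ℂ) _
  simp only [map_sum, map_smul]
  rfl

theorem Wv_ev (f : Sch) : c.Wv (ev f) = ∑ K, Tc c K (ev (hD i0 K f)) := by
  rw [show c.Wv (ev f) = c.Tv (hW (ev f)) from rfl]
  simp only [Tv_eq, ev_hD]

variable {c}

theorem Th_eq (hg : GRP c) {f : Fn} (hf : IsTest f) :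
    c.Th f = (2 : ℂ) • c.Tv (hk va vb f) - ∑ i, c.Tv (hk (ex i) (ex i) f) := by
  rw [Ctx.Th, hg.trace _ _ hf]
  change Completion.toComplL (𝕜 := ℂ) _ = _
  simp only [map_sub, map_sum, map_smul]
  rfl

theorem perp_Tu (hg : GRP c) (u : I2 → ℝ) {f : Fn} (hf : IsTest f) :
    inner ℂ c.Om (Tu c u f) = 0 := by
  simp only [Tu_eq c u hf, inner_sum, inner_smul_right, Base.Om, om, Tc, Completion.inner_coe,
    hg.perp _ _ _ hf, mul_zero, Finset.sum_const_zero]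

/-- the scaling of the middle leg -/
def Sc (c : Ctx D) (u : I2 → ℝ) (p : ℕ) : Prop := ∀ (g : P3 → ℝ) (R : ℝ → ℝ) (L : ℝ), Tst g →
  Tst R → 0 < L → Usc c.Q L 1 (Tu (c.sh (-(Real.log L / 2))) u (pr g R)) =
    (L : ℂ) ^ p • Tu c u (pr (kL g L) R)

theorem sc_aux (hg : GRP c) (g : P3 → ℝ) (R : ℝ → ℝ) {L : ℝ} (hL : 0 < L) :
    (fun x => pr (kL g L) R (sim (Real.sqrt (L * 1))
      (bst va vb (Real.sqrt (L / 1) - 1) (Real.sqrt (1 / L) - 1)) 0 x)) = pr g R ∧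
    (c.sh (-(Real.log L / 2))).sh (Real.log (Real.sqrt (L * 1))) = c := by
  have hq' : 0 < Real.sqrt L := Real.sqrt_pos.2 hL
  refine ⟨funext fun x => ?_, ?_⟩
  · rw [(hg.lsc L 1 hL one_pos).2]
    simp only [pr, kL, pl_1, pl_2, al_scp, be_scp, tx_scp, mul_one, one_mul, smul_smul]
    rw [inv_mul_cancel₀ hq'.ne', one_smul, mul_div_cancel_left₀ _ hL.ne']
    rfl
  · rw [Ctx.sh_sh, mul_one, Real.log_sqrt hL.le, neg_add_cancel, Ctx.sh_zero]

theorem sc_gm (hg : All GRP c) : Sc c gm 0 := fun g R L h1 h2 hL => by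
  obtain ⟨e1, e2⟩ := sc_aux hg.zero g R hL
  have hΛ := (hg.zero.lsc L 1 hL one_pos).1
  have hq : 0 < Real.sqrt (L * 1) := Real.sqrt_pos.2 (by positivity)
  have ht := Far.isTest_dc (dc_pr (tst_kL h1 hL) h2)
  have := (hg (-(Real.log L / 2))).th _ _ 0 _ c.Q.vac hq hΛ ht
  rw [e1, e2, c.Q.U_vac _ _ _ hq hΛ] at this
  rw [Tu_gm _ (Far.isTest_dc (dc_pr h1 h2)), Tu_gm _ ht, pow_zero, one_smul, Ctx.Th, Usc,
    hg.zero.coe _ _ _ _ hq hΛ, this]
  rfl

theorem sc_aa (hg : All GRP c) : Sc c aa 1 := fun g R L h1 h2 hL => by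
  obtain ⟨e1, e3⟩ := sc_aux hg.zero g R hL
  obtain ⟨hΛ, hs⟩ := hg.zero.lsc L 1 hL one_pos
  have hq : 0 < Real.sqrt (L * 1) := Real.sqrt_pos.2 (by positivity)
  have hq' : 0 < Real.sqrt L := Real.sqrt_pos.2 hL
  have ht := Far.isTest_dc (dc_pr (tst_kL h1 hL) h2)
  set Λ := bst va vb (Real.sqrt (L / 1) - 1) (Real.sqrt (1 / L) - 1)
  have e2 : sim 1 Λ 0 va = Real.sqrt L • va := by
    have h3 : Real.sqrt L • sim 1 Λ 0 va = L • va := by
      have : scp L 1 va = L • va := null_ext (by simp) (by simp) (by simp)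
      rw [← this, ← hs]
      funext n
      simp [sim]
    have h4 : L • va = Real.sqrt L • Real.sqrt L • va := by
      rw [smul_smul, Real.mul_self_sqrt hL.le]
    exact smul_right_injective _ hq'.ne' (h3.trans h4)
  have := (hg (-(Real.log L / 2))).ten _ Λ 0 va va _ c.Q.vac hq hΛ ht
  rw [e1, e2, e3, c.Q.U_vac _ _ _ hq hΛ] at this
  rw [Tu_aa, Ctx.Tv, Usc, hg.zero.coe _ _ _ _ hq hΛ, this, Tu_eq c _ ht, Finset.smul_sum]
  refine (Tu_eq c (fun J => eta J.1 * (Real.sqrt L • va) J.1 * (eta J.2 * (Real.sqrt L • va) J.2))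
    ht).trans (Finset.sum_congr rfl fun J _ => ?_)
  rw [smul_smul, pow_one, ← Complex.ofReal_mul]
  congr 2
  simp only [Pi.smul_apply, smul_eq_mul, aa, la]
  linear_combination (eta J.1 * va J.1 * (eta J.2 * va J.2)) * Real.mul_self_sqrt hL.le

/-! ## the spectral measure at small `p_b` -/

/-- the two point function of the member `c` -/
def TWOc (c : Ctx D) : Prop := ∃ C : ℝ, 0 ≤ C ∧ ∀ h k f, IsTest f → c.nu (c.Tv (hk h k f)) ≤
  (volume.restrict Fc).withDensity fun p =>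
    ENNReal.ofReal (C * Wt.Lm (mu p) * nn p h * nn p k * ‖ft f p‖ ^ 2)

theorem twoc (h : TWO c) : TWOc c := by
  obtain ⟨C, hC, h⟩ := h (1 / 4) (by norm_num)
  have e := Real.exp_pos (2 * (c.tau + 0))
  have l := Wt.Lm_pos e
  refine ⟨C * Wt.Lm (Real.exp (2 * (c.tau + 0))), by positivity, fun a b f hf => ?_⟩
  have := h 0 a b f hf
  rw [Ctx.sh_zero] at this
  refine this.trans (withDensity_mono ((ae_restrict_mem meas_Fc).mono fun p hp => ?_))
  have m0 := ((mem_Fc p).1 hp).2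
  have a3 := mul_le_mul_of_nonneg_left (Wt.Lm_mul e m0) hC
  rw [← mul_assoc] at a3
  simp only [mul_assoc _ (nn p a), mul_assoc _ (nn p a * _)]
  rcases le_total 0 (nn p a * nn p b * ‖ft f p‖ ^ 2) with k | k
  · exact ENNReal.ofReal_le_ofReal (mul_le_mul_of_nonneg_right a3 k)
  · exact (ENNReal.ofReal_of_nonpos (mul_nonpos_of_nonneg_of_nonpos
      (mul_nonneg hC (Wt.Lm_pos (mul_pos e m0)).le) k)).trans_le zero_le

theorem nn_bd (p h : V) : |nn p h| ≤ 48 * ‖h‖ ^ 2 * (1 + ‖p‖) ^ 2 := by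
  have a := pow_le_pow_left₀ (abs_nonneg _) (abs_mdot_le h p) 2
  have b := mul_le_mul (abs_mdot_le p p) (abs_mdot_le h h) (abs_nonneg _) (by positivity)
  have d : ‖h‖ ^ 2 * ‖p‖ ^ 2 ≤ ‖h‖ ^ 2 * (1 + ‖p‖) ^ 2 := by gcongr; linarith
  refine (abs_sub _ _).trans ?_
  rw [abs_mul, abs_mul, abs_two, abs_pow, mu]
  nlinarith

theorem nu_bd (ht : TWOc c) (h k : V) : ∃ (m : ℕ) (C : ℝ), 0 ≤ C ∧ ∀ (f : Sch) (s : ℝ), 0 < s →
    c.nu (c.Tv (hk h k (ev f))) {p | al p < s} ≤ ENNReal.ofReal ((C * sn m f) ^ 2 * s) := by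
  obtain ⟨C0, hC0, ht⟩ := ht
  obtain ⟨m, C, hC, hd⟩ := ft_decay 6
  obtain ⟨K, hK, hF⟩ := Wt.lowI (.inl rfl)
  set B := C0 * (48 * ‖h‖ ^ 2 * (48 * ‖k‖ ^ 2)) with hB
  have hB0 : 0 ≤ B := by positivity
  refine ⟨m, Real.sqrt (B * K) * C, by positivity, fun f s hs => ?_⟩
  obtain ⟨F, f1, f2, f3, f4⟩ := hF s hs
  have hS : MeasurableSet {p : V | al p < s} := measurableSet_lt meas_al measurable_const
  have hM : 0 ≤ B * (C * sn m f) ^ 2 := by positivity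
  refine (ht h k _ ⟨f, rfl⟩ _).trans ?_
  rw [withDensity_apply _ hS, ← lintegral_indicator hS]
  refine (lintegral_mono_ae (g := fun p => ENNReal.ofReal (B * (C * sn m f) ^ 2 * F p)) ?_).trans
    (le_of_eq ?_)
  · filter_upwards [ae_restrict_mem meas_Fc, ae_restrict_of_ae Wt.ae_tx] with p hp hq
    by_cases k1 : p ∈ {p : V | al p < s}
    swap
    · rw [Set.indicator_of_notMem k1]
      exact zero_le
    rw [Set.indicator_of_mem k1]
    refine ENNReal.ofReal_le_ofReal (le_trans ?_ (mul_le_mul_of_nonneg_left (f4 p hp hq k1) hM))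
    have l0 := Wt.Lm_pos ((mem_Fc p).1 hp).2
    have a1 : nn p h * nn p k ≤ 48 * ‖h‖ ^ 2 * (1 + ‖p‖) ^ 2 * (48 * ‖k‖ ^ 2 * (1 + ‖p‖) ^ 2) :=
      (le_abs_self _).trans ((abs_mul _ _).trans_le
        (mul_le_mul (nn_bd p h) (nn_bd p k) (abs_nonneg _) (by positivity)))
    have a2 := pow_le_pow_left₀ (by positivity) (hd f p) 2
    rw [← mul_assoc, ← div_eq_mul_inv, le_div_iff₀ (by positivity)]
    calc _ = C0 * Wt.Lm (mu p) * (nn p h * nn p k) * (‖ft (ev f) p‖ ^ 2 * (1 + ‖p‖) ^ 8) := by ring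
      _ ≤ C0 * Wt.Lm (mu p) * (48 * ‖h‖ ^ 2 * (1 + ‖p‖) ^ 2 * (48 * ‖k‖ ^ 2 * (1 + ‖p‖) ^ 2)) *
          (‖ft (ev f) p‖ ^ 2 * (1 + ‖p‖) ^ 8) := by gcongr
      _ = B * ((1 + ‖p‖) ^ 6 * ‖ft (ev f) p‖) ^ 2 * Wt.Lm (mu p) := by rw [hB]; ring
      _ ≤ _ := by gcongr
  · rw [← ofReal_integral_eq_lintegral_ofReal (Integrable.const_mul f1 _)
      ((ae_restrict_mem meas_Fc).mono fun p hp => mul_nonneg hM (f3 p hp)), integral_const_mul, f2,
      mul_assoc (Real.sqrt _), mul_pow (Real.sqrt _), Real.sq_sqrt (by positivity)]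
    congr 1
    ring

/-! ## tails -/

/-- the bound of the tails -/
def TB (c : Ctx D) (κ : ℝ) (Y : ℝ → Sch → Completion D) : Prop := ∃ (m : ℕ) (C : ℝ), 0 ≤ C ∧
  ∀ (f : Sch) w (Λ L : ℝ), 1 ≤ L → 0 ≤ Λ → (∀ s, ‖Gb c.Q s w - w‖ ≤ Λ * |s|) →
    ‖inner ℂ (Usc c.Q L 1 (Y L f)) w‖ ≤ C * (L ^ (-κ) * (‖w‖ + Λ) * sn m f)

theorem TB.lin {κ : ℝ} {Y Y' : ℝ → Sch → Completion D} (h : TB c κ Y) (h' : TB c κ Y') (a : ℂ) :
    TB c κ fun L f => a • Y L f - Y' L f := by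
  obtain ⟨m, C, hC, h⟩ := h
  obtain ⟨m', C', hC', h'⟩ := h'
  refine ⟨max m m', ‖a‖ * C + C', by positivity, fun f w Λ L h1 h2 h3 => ?_⟩
  have a3 : 0 ≤ L ^ (-κ) := Real.rpow_nonneg (by linarith) _
  have b1 := Lie.sn_mono (le_max_left m m') f
  have b2 := Lie.sn_mono (le_max_right m m') f
  rw [map_sub, map_smul, inner_sub_left, inner_smul_left, add_mul, mul_assoc]
  refine (norm_sub_le _ _).trans (add_le_add ?_ ((h' f w Λ L h1 h2 h3).trans (by gcongr)))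
  rw [norm_mul, RCLike.norm_conj]
  exact mul_le_mul_of_nonneg_left ((h f w Λ L h1 h2 h3).trans (by gcongr)) (norm_nonneg _)

theorem tail1 (hb : BAS c.toBase) : ∃ κ : ℝ, 0 < κ ∧ ∀ x, GEN (c.sh x) → TWOc (c.sh x) → ∀ h k,
    TB c κ fun _ f => (c.sh x).Tv (hk h k (ev f)) := by
  obtain ⟨C0, κ, hκ, h0⟩ := hb.tail
  refine ⟨κ, hκ, fun x hn ht h k => ?_⟩
  obtain ⟨m2, C2, hC2, h2⟩ := nu_bd ht h k
  obtain ⟨m3, C3, h3⟩ := hn.bd
  have b3 : SB fun f : Sch => ‖(c.sh x).Tv (hk h k (ev f))‖ :=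
    (SB.sn m3 (abs_nonneg (C3 * ‖h‖ * ‖k‖))).mono fun f => (h3 _ _ f).trans
      (mul_le_mul_of_nonneg_right (le_abs_self _) (Lie.sn_nonneg _ _))
  obtain ⟨m5, C5, hC5, h5⟩ := ((SB.sn m2 hC2).add b3).add
    (b3.comp (LineDeriv.lineDerivOpCLM ℝ Sch va))
  refine ⟨m5, |C0| * C5, by positivity, fun f w Λ L hL hΛ hw => ?_⟩
  have hf : IsTest (ev f) := ⟨f, rfl⟩
  have hd := hn.ut va h k _ hf
  have hs := Lie.sn_nonneg m2 f
  have := h0 _ w _ _ L hL (mul_nonneg hC2 hs) hd.dm hw fun s hs => h2 f s hs.1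
  rw [show gen (Pa c.Q) _ = _ from hd.gen_eq, norm_smul, Complex.norm_I, one_mul, ← ev_dD] at this
  refine this.trans ?_
  have a2 := h5 f
  have a3 : 0 ≤ L ^ (-κ) := Real.rpow_nonneg (by linarith) _
  calc _ ≤ |C0| * L ^ (-κ) * (‖w‖ + Λ) * (C5 * sn m5 f) := by
        gcongr
        exacts [le_abs_self _, a2]
    _ = _ := by ring

/-- the running member -/
theorem TB.run (hg : GRP c) {κ : ℝ} (hκ : 0 < κ) {u : I2 → ℝ}
    (h : ∀ x, TB c κ fun _ f => Tu (c.sh x) u (ev f)) :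
    TB c (κ / 2) fun L f => Tu (c.sh (-(Real.log L / 2))) u (ev f) := by
  obtain ⟨m, C, hC, h⟩ := IsPol.unifm (J := c.n0) (α := Sch × Completion D × ℝ × ℝ)
    (F := fun q x => inner ℂ (Usc c.Q q.2.2.2 1 (Tu (c.sh x) u (ev q.1))) q.2.1)
    (r := fun m q => q.2.2.2 ^ (-κ) * (‖q.2.1‖ + q.2.2.1) * sn m q.1)
    (P := fun q => 1 ≤ q.2.2.2 ∧ 0 ≤ q.2.2.1 ∧ ∀ s, ‖Gb c.Q s q.2.1 - q.2.1‖ ≤ q.2.2.1 * |s|)
    (fun q _ => (hg.polv _ fun m n => Ap.sw_cmul _ ⟨q.1, rfl⟩).map'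
      (fun v => inner ℂ (Usc c.Q q.2.2.2 1 v) q.2.1) (fun x y => by rw [map_add, inner_add_left])
      fun t x => by
        rw [← Complex.coe_smul, map_smul, inner_smul_left, Complex.conj_ofReal, Complex.real_smul])
    (fun m q ⟨a, b, _⟩ => mul_nonneg (mul_nonneg (Real.rpow_nonneg (by linarith) _)
      (by positivity)) (Lie.sn_nonneg _ _))
    (fun m m' q e ⟨a, b, _⟩ => mul_le_mul_of_nonneg_left (Lie.sn_mono e _)
      (mul_nonneg (Real.rpow_nonneg (by linarith) _) (by positivity)))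
    fun x => (h x).imp fun m ⟨C, _, h⟩ => ⟨C, fun q ⟨a, b, d⟩ => h _ _ _ _ a b d⟩
  obtain ⟨K, hK, h'⟩ := log_le_rpow_top c.n0 (-1 / 2) 0 (half_pos hκ)
  refine ⟨m, C * K, by positivity, fun f w Λ L h1 h2 h3 => (h (f, w, Λ, L) ⟨h1, h2, h3⟩ _).trans ?_⟩
  have a := h' L h1
  rw [show 0 + -1 / 2 * Real.log L = -(Real.log L / 2) by ring] at a
  have a3 : 0 ≤ L ^ (-κ) := Real.rpow_nonneg (by linarith) _
  have a4 := Lie.sn_nonneg m f
  have e : L ^ (-(κ / 2)) = L ^ (κ / 2) * L ^ (-κ) := by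
    rw [← Real.rpow_add (by linarith)]
    congr 1
    ring
  calc _ ≤ C * (K * L ^ (κ / 2)) * (L ^ (-κ) * (‖w‖ + Λ) * sn m f) := by gcongr
    _ = _ := by rw [e]; ring

theorem tail2 (hg : All GRP c) (hn : All GEN c) (hb : BAS c.toBase) (ht : All TWOc c) {u : I2 → ℝ}
    (hu : u = gm ∨ u = aa) :
    ∃ κ : ℝ, 0 < κ ∧ TB c κ fun L f => Tu (c.sh (-(Real.log L / 2))) u (ev f) := by
  obtain ⟨κ, hκ, h⟩ := tail1 hb
  refine ⟨_, half_pos hκ, TB.run hg.zero hκ fun x => ?_⟩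
  have k := h x (hn x) (ht x)
  rcases hu with rfl | rfl
  · have := ((k va vb).lin (k (ex 0) (ex 0)) 2).lin (k (ex 1) (ex 1)) 1
    refine (congrArg (TB c κ) (funext₂ fun _ f => ?_)).mp this
    rw [Tu_gm _ ⟨f, rfl⟩, Th_eq (hg x) ⟨f, rfl⟩, Fin.sum_univ_two, one_smul, sub_sub]
  · exact k va va

/-! ## the two leg vectors -/

/-- the projection on the complement of the vacuum -/
def Po (c : Ctx D) : Completion D →L[ℂ] Completion D := 1 - (innerSL ℂ c.Om).smulRight c.Om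

theorem Po_apply (v : Completion D) : Po c v = v - inner ℂ c.Om v • c.Om := rfl

theorem om_U (hg : GRP c) (s : ℝ) (L : Ix → V) (a : V) (v : Completion D) :
    inner ℂ c.Om (Ug c.Q s L a v) = inner ℂ c.Om v := by
  rw [← inner_unitary (hg.uni s L a) c.Om v, hg.vac]

theorem Po_om : Po c c.Om = 0 := by
  rw [Po_apply, inner_self_eq_norm_sq_to_K, Base.Om, om, Completion.norm_coe, c.Q.norm_vac]
  simp

theorem Po_U (hg : GRP c) (s : ℝ) (L : Ix → V) (a : V) (v : Completion D) :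
    Po c (Ug c.Q s L a v) = Ug c.Q s L a (Po c v) := by
  rw [Po_apply, Po_apply, om_U hg, map_sub, map_smul, hg.vac]

/-- Lipschitz bounds under the null rotations that fix `b` -/
def LP (c : Ctx D) (A : S2 →L[ℂ] Completion D) : Prop := ∃ (m : ℕ) (C : ℝ), 0 ≤ C ∧ ∀ G s,
  ‖Gb c.Q s (Po c (A G)) - Po c (A G)‖ ≤ C * sn m G * |s|

theorem LP.add {A B : S2 →L[ℂ] Completion D} (h : LP c A) (h' : LP c B) : LP c (A + B) := by
  obtain ⟨m, C, hC, h⟩ := h
  obtain ⟨m', C', hC', h'⟩ := h'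
  obtain ⟨n, K, hK, k⟩ := (SB.sn (E := V × V) m hC).add (SB.sn m' hC')
  refine ⟨n, K, hK, fun G s => ?_⟩
  rw [ContinuousLinearMap.add_apply, map_add, map_add, add_sub_add_comm]
  refine (norm_add_le _ _).trans ((add_le_add (h G s) (h' G s)).trans ?_)
  rw [← add_mul]
  exact mul_le_mul_of_nonneg_right (k G) (abs_nonneg _)

theorem LP.sum {ι : Type*} [Fintype ι] {A : ι → S2 →L[ℂ] Completion D} (h : ∀ i, LP c (A i)) :
    LP c (∑ i, A i) :=
  Finset.sum_induction _ _ (fun _ _ => LP.add) ⟨0, 0, le_rfl, by simp⟩ fun i _ => h i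

theorem LP.comp {A : S2 →L[ℂ] Completion D} (h : LP c A) (B : S2 →L[ℂ] S2) : LP c (A ∘L B) := by
  obtain ⟨m, C, hC, h⟩ := h
  obtain ⟨n, K, hK, k⟩ := (SB.sn (E := V × V) m hC).comp (B.restrictScalars ℝ)
  exact ⟨n, K, hK, fun G s => (h _ s).trans (mul_le_mul_of_nonneg_right (k G) (abs_nonneg _))⟩

theorem lp_w (hg : GRP c) {e : Bool} {w : ℝ → ℝ → I2 → I2 → S2 →L[ℂ] Completion D}
    (hw : TP2 c.Q c.TT e w) (α β : ℝ) (I J : I2) : LP c (w α β I J) := by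
  obtain ⟨m, C, hC, h⟩ : SB fun F => ∑ q : I2 × I2, ‖Po c (w α β q.1 q.2 F)‖ :=
    (Finset.sum_induction (s := Finset.univ) (fun (q : I2 × I2) F => ‖Po c (w α β q.1 q.2 F)‖) SB
      (fun _ _ => SB.add) ⟨0, 0, le_rfl, fun _ => by simp⟩
      fun q _ => SB.clm (Po c ∘L w α β q.1 q.2)).mono fun F => by rw [Finset.sum_apply]
  beta_reduce at h
  obtain ⟨K, hK, hK'⟩ := gb_near
  let a : ℝ → I2 × I2 → ℂ := fun s q => L2 (fun m => gbp s (bas m 1)) q.1 I *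
    L2 (fun m => gbp s (bas m 1)) q.2 J
  obtain ⟨N, hN⟩ : ∃ N, LipschitzOnWith N a (Set.Icc (-1) 1) := by
    refine ContDiffOn.exists_lipschitzOnWith (n := 1) (ContDiff.contDiffOn ?_) one_ne_zero
      (convex_Icc _ _) isCompact_Icc
    have k : ∀ m n, ContDiff ℝ 1 fun s => gbp s (bas m 1) n := fun m n => by
      simp only [IXH.gbp_eq, Pi.add_apply, Pi.smul_apply, smul_eq_mul]
      fun_prop
    exact contDiff_pi.2 fun q => (Complex.ofRealCLM.contDiff.comp ((k _ _).mul (k _ _))).mul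
      (Complex.ofRealCLM.contDiff.comp ((k _ _).mul (k _ _)))
  have cov : ∀ s (F G : S2), (∀ x y, G (x, y) = F (gbp s x, gbp s y)) → Po c (w α β I J F) =
      Gb c.Q s (∑ q : I2 × I2, a s q • Po c (w α β q.1 q.2 G)) := fun s F G e => by
    obtain ⟨hL, hs⟩ := hg.lgb s
    obtain ⟨κ, k⟩ := hw.cov α β 1 _ 0 I J F G one_pos hL fun x y => by rw [hs, hs, e]
    simp only [Real.log_one, add_zero, ← Ug_apply c.Q one_pos hL] at k
    simp only [k, map_add, map_sum, map_smul, Po_U hg, show Po c (om c.Q) = 0 from Po_om, smul_zero,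
      add_zero, Fintype.sum_prod_type, a, ← hs, IXH.sim_bas]
    rfl
  set M : ℝ := (m * 2 ^ m + 1) * 4 ^ (m + 1) with hM
  have hM0 : 0 ≤ M := by positivity
  have hN0 : (0 : ℝ) ≤ N := N.2
  have ha0 := norm_nonneg (a 0)
  refine ⟨m + 1, N * C * (1 + M) + ‖a 0‖ * C * M * K + 4 * K * C, by positivity, fun F s => ?_⟩
  have hF := Lie.sn_nonneg (m + 1) F
  have h0 := (h F).trans (sn_up hC (Nat.le_add_right m 1) F)
  have hu : ∀ v, ‖Gb c.Q s v‖ = ‖v‖ := ContinuousLinearMap.norm_map_of_mem_unitary (hg.uni _ _ _)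
  have s0 := abs_nonneg s
  rcases le_total (K * |s|) (1 / 2) with hs | hs
  · have s1 : |s| ≤ 1 := by nlinarith
    let g : (V × V) ≃L[ℝ] V × V := .equivOfInverse ((gbpL s).prodMap (gbpL s))
      ((gbpL (-s)).prodMap (gbpL (-s))) (fun z => by simp [gbp_gbp, Prod.map])
      fun z => by simp [gbp_gbp, Prod.map]
    let G : S2 := SchwartzMap.compCLMOfContinuousLinearEquiv ℂ g F
    have h1 := cov s F G fun x y => congrArg F (by simp [g])
    have h2 := Lie.lip (m := m) (F := F) (G := G) (a := 0) hs (hK' s s1)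
      (by rw [norm_zero]; positivity) fun x => by rw [add_zero]; rfl
    rw [← hM] at h2
    have h3 := cov 0 F F fun x y => by simp
    rw [hg.gb0, ContinuousLinearMap.one_apply] at h3
    have h4 : ‖a s - a 0‖ ≤ N * |s| := by
      simpa only [dist_eq_norm, sub_zero, Real.norm_eq_abs] using
        hN.dist_le_mul s (abs_le.1 s1) 0 ⟨by norm_num, by norm_num⟩
    have h5 := (h (G - F)).trans (mul_le_mul_of_nonneg_left h2 hC)
    nth_rw 2 [h1]
    rw [← map_sub, hu, norm_sub_rev, h3, ← Finset.sum_sub_distrib]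
    refine (norm_sum_le_of_le _ (n := fun q => N * |s| * (‖Po c (w α β q.1 q.2 F)‖ +
      ‖Po c (w α β q.1 q.2 (G - F))‖) + ‖a 0‖ * ‖Po c (w α β q.1 q.2 (G - F))‖) fun q _ => ?_).trans ?_
    · rw [show a s q • Po c (w α β q.1 q.2 G) - a 0 q • Po c (w α β q.1 q.2 F) =
        (a s - a 0) q • (Po c (w α β q.1 q.2 F) + Po c (w α β q.1 q.2 (G - F))) +
          a 0 q • Po c (w α β q.1 q.2 (G - F)) by
        simp only [map_sub, Pi.sub_apply]; module]
      refine (norm_add_le _ _).trans (add_le_add ?_ ?_) <;> rw [norm_smul]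
      · exact mul_le_mul ((norm_le_pi_norm _ q).trans h4) (norm_add_le _ _) (norm_nonneg _)
          (by positivity)
      · exact mul_le_mul_of_nonneg_right (norm_le_pi_norm _ q) (norm_nonneg _)
    · rw [Finset.sum_add_distrib, ← Finset.mul_sum, ← Finset.mul_sum, Finset.sum_add_distrib]
      have h6 : C * (M * (K * |s|) * sn (m + 1) F) ≤ C * (M * 1 * sn (m + 1) F) := by
        gcongr
        linarith
      have : 0 ≤ 4 * K * C * sn (m + 1) F * |s| := by positivity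
      linarith [mul_le_mul_of_nonneg_left (add_le_add h0 (h5.trans h6)) (mul_nonneg hN0 s0),
        mul_le_mul_of_nonneg_left h5 ha0]
  · have h1 := (Finset.single_le_sum (f := fun q : I2 × I2 => ‖Po c (w α β q.1 q.2 F)‖)
      (fun _ _ => norm_nonneg _) (Finset.mem_univ (I, J))).trans h0
    refine (norm_sub_le _ _).trans ?_
    have : 0 ≤ (N * C * (1 + M) + ‖a 0‖ * C * M * K) * sn (m + 1) F * |s| := by positivity
    have := mul_le_mul_of_nonneg_left hs (mul_nonneg hC hF)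
    rw [hu]
    nlinarith

theorem www_apply (w : I2 → I2 → S2 →L[ℂ] Completion D) (G : S2) :
    www w G = ∑ I, ∑ K, w I K (hD i1 I (hD i2 K G)) := by
  simp only [www, ContinuousLinearMap.sum_apply, ContinuousLinearMap.comp_apply,
    ContinuousLinearMap.mul_apply]

theorem tail3 (hg : GRP c) {u : I2 → ℝ} {p : ℕ} (hs : Sc c u p) {κ : ℝ}
    (h : TB c κ fun L f => Tu (c.sh (-(Real.log L / 2))) u (ev f)) {e : Bool}
    {w : ℝ → ℝ → I2 → I2 → S2 →L[ℂ] Completion D} (hw : TP2 c.Q c.TT e w) :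
    ∃ (m : ℕ) (C : ℝ), 0 ≤ C ∧ ∀ g R (G : S2) (L : ℝ), Tst g → Tst R → 1 ≤ L →
      ‖(L : ℂ) ^ p * inner ℂ (Tu c u (pr (kL g L) R)) (www (w c.tau c.tau) G)‖ ≤
        C * L ^ (-κ) * sn m G * sn m (sch (pr g R)) := by
  obtain ⟨m1, C1, hC1, h1⟩ : LP c (www (w c.tau c.tau)) :=
    LP.sum fun I => LP.sum fun K => (lp_w hg hw _ _ I K).comp _
  obtain ⟨m4, C4, hC4, h4⟩ := (SB.clm (Po c ∘L www (w c.tau c.tau))).add (SB.sn m1 hC1)
  obtain ⟨m5, C5, hC5, h5⟩ := h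
  refine ⟨max m4 m5, C5 * C4, by positivity, fun g R G L t1 t2 hL => ?_⟩
  have L0 : 0 < L := by linarith
  have := h5 (sch (pr g R)) _ _ L hL (mul_nonneg hC1 (Lie.sn_nonneg _ _)) (h1 G)
  beta_reduce at this
  rw [ev, Api4.coe_sch (dc_pr t1 t2), hs g R L t1 t2 L0, inner_smul_left, Po_apply, inner_sub_right,
    inner_smul_right, ← inner_conj_symm _ c.Om,
    perp_Tu hg u (Far.isTest_dc (dc_pr (tst_kL t1 L0) t2)), map_zero, mul_zero, sub_zero, map_pow,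
    Complex.conj_ofReal, ← Po_apply] at this
  refine this.trans ?_
  have a1 := (h4 G).trans (sn_up hC4 (le_max_left m4 m5) G)
  have a2 := Lie.sn_mono (le_max_right m4 m5) (sch (pr g R))
  have a3 : 0 ≤ L ^ (-κ) := Real.rpow_nonneg L0.le _
  have a4 := Lie.sn_nonneg m5 (sch (pr g R))
  have a5 := Lie.sn_nonneg (max m4 m5) G
  calc _ ≤ C5 * (L ^ (-κ) * (C4 * sn (max m4 m5) G) * sn (max m4 m5) (sch (pr g R))) := by
        gcongr
        exact a1
    _ = _ := by ring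

/-! ## factorization -/

theorem late_mono {A A' B B' : Set V} (h : Late A B) (a : A' ⊆ A) (b : B' ⊆ B) : Late A' B' :=
  fun x hx y hy => h x (a hx) y (b hy)

theorem legs_mono {G G' : V × V → ℂ} (h : tsupport G ⊆ tsupport G') : legs G ⊆ legs G' :=
  Set.union_subset_union (Set.image_mono h) (Set.image_mono h)

theorem mid_ten {f : Sch} {G : S2} {F : S3} (e : ∀ x y z, F (x, y, z) = G (x, z) * f y) (I K : I2)
    (x y z : V) : hD j1 I (hD j3 K F) (x, y, z) = hD i1 I (hD i2 K G) (x, z) * f y :=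
  hD_ten ((ContinuousLinearMap.id ℝ V).prodMap (.snd ℝ V V)) (.fst ℝ V V ∘L .snd ℝ V (V × V)) f
    (fun _ => rfl) (fun _ => rfl) I (hD_ten ((ContinuousLinearMap.id ℝ V).prodMap (.snd ℝ V V))
      (.fst ℝ V V ∘L .snd ℝ V (V × V)) f (fun _ => rfl) (fun _ => rfl) K fun z => e _ _ _) (x, y, z)

theorem legs_hD (I K : I2) (G : S2) : legs (hD i1 I (hD i2 K G)) ⊆ legs G :=
  legs_mono ((hD_supp _ _ _).trans (hD_supp _ _ _))

/-- the middle leg is not earlier than the two others -/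
theorem facP [Fact c.tp] (u : I2 → ℝ) (f : Sch) (G : S2) (F : S3)
    (e : ∀ x y z, F (x, y, z) = G (x, z) * f y) (h : Late (tsupport f) (legs G)) :
    tX c.t u F = inner ℂ (Tu c u (bar (ev f))) (www c.wp G) := by
  have key : ∀ I J K, c.t I J K (hD j1 I (hD j3 K F)) =
      inner ℂ (Tc c J (bar (ev f))) (c.wp I K (hD i1 I (hD i2 K G))) := fun I J K =>
    (c.hTP.swap1 _ I J K _ (SchwartzMap.compCLMOfContinuousLinearEquiv ℂ sw1 _)
      fun _ _ _ => rfl).trans (c.hTP.fac1 _ J I K f _ _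
        (fun x y z => (mid_ten e I K y x z).trans (mul_comm _ _))
        (late_mono h subset_rfl (legs_hD I K G)))
  rw [Tu_eq c u (Ap.test_bar ⟨f, rfl⟩), tX_apply, Finset.sum_comm]
  simp only [key, www_apply, sum_inner, inner_smul_left, Complex.conj_ofReal]
  simp only [inner_sum, Finset.mul_sum]

/-- the middle leg is not later than the two others -/
theorem facM [Fact c.tp] (u : I2 → ℝ) (f : Sch) (G G' : S2) (F : S3)
    (e : ∀ x y z, F (x, y, z) = G (x, z) * f y) (e' : ∀ x, G' x = star (G x))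
    (h : Late (legs G) (tsupport f)) :
    tX c.t u F = inner ℂ (www c.wm G') (Tu c u (ev f)) := by
  have key : ∀ I J K, c.t I J K (hD j1 I (hD j3 K F)) =
      inner ℂ (c.wm I K (hD i1 I (hD i2 K G'))) (Tc c J (ev f)) := fun I J K =>
    (c.hTP.swap2 _ I J K _ (SchwartzMap.compCLMOfContinuousLinearEquiv ℂ sw2 _)
      fun _ _ _ => rfl).trans (c.hTP.fac3 _ I K J _ _ f _ (fun x y z => mid_ten e I K x z y)
        (hD_conj (e := i1) (.id ℝ _) (fun _ => rfl) I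
          (hD_conj (e := i2) (.id ℝ _) (fun _ => rfl) K e'))
        (late_mono h (legs_hD I K G) subset_rfl))
  rw [Tu_eq c u ⟨f, rfl⟩, tX_apply, Finset.sum_comm]
  simp only [key, www_apply, inner_sum, inner_smul_right]
  simp only [sum_inner, Finset.mul_sum]

theorem triP [Fact c.tp] (u : I2 → ℝ) {f : Fn} {Ψ : V × V → ℂ} (hf : Dc f) (h3 : Dc Ψ)
    (h : Late (tsupport f) (legs Ψ)) :
    X (tX c.t u) Ψ f = inner ℂ (Tu c u (bar f)) (www c.wp (sch Ψ)) := by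
  rw [X, facP u (sch f) (sch Ψ) _ (fun x y z => by
      rw [Api4.sch_apply (dc_tri h3 hf), Api4.sch_apply h3, Api4.sch_apply hf])
      (by rwa [Api4.coe_sch hf, Api4.coe_sch h3]), ev, Api4.coe_sch hf]

theorem triM [Fact c.tp] (u : I2 → ℝ) {f : Fn} {Ψ : V × V → ℂ} (hf : Dc f) (h3 : Dc Ψ)
    (h : Late (legs Ψ) (tsupport f)) :
    X (tX c.t u) Ψ f = inner ℂ (www c.wm (sch fun z => star (Ψ z))) (Tu c u f) := by
  rw [X, facM u (sch f) (sch Ψ) (sch fun z => star (Ψ z)) _ (fun x y z => by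
      rw [Api4.sch_apply (dc_tri h3 hf), Api4.sch_apply h3, Api4.sch_apply hf])
      (fun x => by rw [Api4.sch_apply (Api4.dc_star h3), Api4.sch_apply h3])
      (by rwa [Api4.coe_sch hf, Api4.coe_sch h3]), ev, Api4.coe_sch hf]

/-- bounds when the middle leg is comparable with the two others -/
def Ord (Λ : S3 →L[ℂ] ℂ) (p : ℕ) : Prop := ∃ κ : ℝ, 0 < κ ∧ ∃ (m : ℕ) (C : ℝ), 0 ≤ C ∧
  ∀ g R Ψ (L : ℝ), Tst g → Tst R → Dc Ψ → 1 ≤ L →
    (Late (tsupport (pr (kL g L) R)) (legs Ψ) ∨ Late (legs Ψ) (tsupport (pr (kL g L) R))) →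
    ‖(L : ℂ) ^ p * X Λ Ψ (pr (kL g L) R)‖ ≤
      C * L ^ (-κ) * sn m (sch Ψ) * (sn m (sch (cx g)) * sn m (sch (cx R)))

theorem ord [Fact c.tp] (hg : All GRP c) (hn : All GEN c) (hb : BAS c.toBase) (ht : All TWOc c)
    {u : I2 → ℝ} (hu : u = gm ∨ u = aa) {p : ℕ} (hs : Sc c u p) : Ord (tX c.t u) p := by
  obtain ⟨κ, hκ, h⟩ := tail2 hg hn hb ht hu
  obtain ⟨m1, C1, hC1, h1⟩ := tail3 hg.zero hs h c.hTP.tp
  obtain ⟨m2, C2, hC2, h2⟩ := tail3 hg.zero hs h c.hTP.tm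
  set m := max m1 m2
  obtain ⟨C3, hC3, h3⟩ := sn_pr m
  refine ⟨κ, hκ, m, (C1 + C2 * 2 ^ m) * C3, by positivity, fun g R Ψ L t1 t2 t3 hL k => ?_⟩
  have hf := dc_pr (tst_kL t1 (by linarith : 0 < L)) t2
  have a3 : 0 ≤ L ^ (-κ) := Real.rpow_nonneg (by linarith) _
  have b1 := Lie.sn_nonneg m (sch (cx g))
  have b2 := Lie.sn_nonneg m (sch (cx R))
  have b3 := Lie.sn_nonneg m (sch Ψ)
  have b4 := Lie.sn_nonneg m1 (sch (pr g R))
  have b5 := Lie.sn_nonneg m2 (sch (pr g R))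
  rcases k with k | k
  · rw [triP u hf t3 k, Far.bar_pr]
    refine (h1 g R _ L t1 t2 hL).trans ?_
    calc _ ≤ (C1 + C2 * 2 ^ m) * L ^ (-κ) * sn m (sch Ψ) *
          (C3 * sn m (sch (cx g)) * sn m (sch (cx R))) := by
          have : C1 ≤ C1 + C2 * 2 ^ m := le_add_of_nonneg_right (by positivity)
          have a4 : _ ≤ sn m _ := Lie.sn_mono (le_max_left m1 m2) (sch Ψ)
          have a6 := Lie.sn_nonneg m1 (sch Ψ)
          have a5 := (Lie.sn_mono (le_max_left m1 m2) _).trans (h3 _ _ t1 t2)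
          gcongr
      _ = _ := by ring
  · rw [triM u hf t3 k, norm_mul, norm_inner_symm, ← norm_mul]
    refine (h2 g R _ L t1 t2 hL).trans ?_
    calc _ ≤ C2 * L ^ (-κ) * (2 ^ m * sn m (sch Ψ)) *
          (C3 * sn m (sch (cx g)) * sn m (sch (cx R))) := by
          gcongr
          exacts [(Lie.sn_mono (le_max_right _ _) _).trans (sn_star t3 m),
            (Lie.sn_mono (le_max_right _ _) _).trans (h3 _ _ t1 t2)]
      _ ≤ _ := by
        have : 0 ≤ C1 * C3 * L ^ (-κ) * sn m (sch Ψ) * (sn m (sch (cx g)) * sn m (sch (cx R))) := by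
          positivity
        linarith

variable {Λ : S3 →L[ℂ] ℂ} {p : ℕ}

/-- **The far part of the plane.** -/
theorem Ord.far (h : Ord Λ p) : FarB Λ p := by
  obtain ⟨κ, hκ, m, C, hC, h⟩ := h
  refine ⟨κ, hκ, m, fun g r b hg h0 => ?_⟩
  obtain ⟨gp, gm, A, a1, a2, -, -, a5, -, a7⟩ := Far.split hg h0 r b
  have b1 := Lie.sn_nonneg m (sch (cx gp))
  have b2 := Lie.sn_nonneg m (sch (cx gm))
  refine ⟨C * (sn m (sch (cx gp)) + sn m (sch (cx gm))), max A 1, by positivity, le_max_right _ _,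
    fun L Ψ R hL hΨ hr hR hs => ?_⟩
  have hL1 := (le_max_right _ _).trans hL
  have L0 : 0 < L := by linarith
  obtain ⟨d1, d2⟩ := a7 L ((le_max_left _ _).trans hL) R (legs Ψ) hs fun y hy => Far.norm_legs hr hy
  rw [show pr (kL g L) R = fun z => pr (kL gp L) R z + pr (kL gm L) R z from funext fun z => by
    simp only [pr, kL, a5, add_mul, Complex.ofReal_add],
    X_add_r hΨ (dc_pr (tst_kL a1 L0) hR) (dc_pr (tst_kL a2 L0) hR), mul_add]
  exact (norm_add_le _ _).trans ((add_le_add (h gp R Ψ L a1 hR hΨ hL1 (.inl d1))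
    (h gm R Ψ L a2 hR hΨ hL1 (.inr d2))).trans_eq (by ring))

/-- both legs on one side -/
theorem Ord.side (h : Ord Λ p) {u0 : ℝ} {κ : P3 → ℝ} {ρ : ℝ → ℝ} {Ψ : V × V → ℂ} (h1 : Tst κ)
    (h2 : Tst ρ) (h3 : Dc Ψ) (h4 : tsupport ρ ⊆ Set.Ioo (-u0) u0)
    (h5 : tsupport Ψ ⊆ {z | be z.1 < -u0 ∧ be z.2 < -u0} ∨
      tsupport Ψ ⊆ {z | u0 < be z.1 ∧ u0 < be z.2}) :
    Tendsto (fun L : ℝ => (L : ℂ) ^ p * X Λ Ψ (pr (kL κ L) ρ)) atTop (𝓝 0) := by
  obtain ⟨k, hk, m, C, -, h⟩ := h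
  have := (((tendsto_rpow_neg_atTop hk).const_mul C).mul_const (sn m (sch Ψ))).mul_const
    (sn m (sch (cx κ)) * sn m (sch (cx ρ)))
  rw [mul_zero, zero_mul, zero_mul] at this
  refine squeeze_zero_norm' ((eventually_ge_atTop 1).mono fun L hL => h κ ρ Ψ L h1 h2 h3 hL
    (h5.imp (fun h5 => late_iff.2 fun x hx y hy _ a2 => ?_)
      fun h5 => late_iff.2 fun y hy x hx _ a2 => ?_)) this
  · have b1 := (h4 (Far.tsupport_pr _ _ hx).2).1
    rcases hy with ⟨z, hz, rfl⟩ | ⟨z, hz, rfl⟩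
    · linarith [(h5 hz).1]
    · linarith [(h5 hz).2]
  · have b1 := (h4 (Far.tsupport_pr _ _ hx).2).2
    rcases hy with ⟨z, hz, rfl⟩ | ⟨z, hz, rfl⟩
    · linarith [(h5 hz).1]
    · linarith [(h5 hz).2]

theorem inv_tX [Fact c.tp] (hg : GRP c) {u : I2 → ℝ} (hu : u = gm ∨ u = aa) : Inv (tX c.t u) :=
  tX_Inv hu (fun w => ⟨_, hg.lga w⟩) fun L a I J K F G hL h => by
    simpa only [Real.log_one, add_zero] using
      c.hTP.cov c.tau 1 L a I J K F G one_pos hL h (.inl rfl)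

theorem ord3 [Fact c.tp] (t : T3 c) {u : I2 → ℝ} (hu : u = gm ∨ u = aa) {p : ℕ} (hs : Sc c u p) :
    Ord (tX c.t u) p :=
  ord (fun x => (t.all x).grp) (fun x => (t.all x).gen) t.bas (fun x => twoc (t.all x).two) hu hs

theorem tw0_eq (c : Ctx D) : c.tw0 = tX c.t aa := by simp only [Ctx.tw0, Ctx.tw, tX, aa]

theorem twh_eq (c : Ctx D) : c.twh = tX c.t gm := by simp only [Ctx.twh, Ctx.tw, tX]

theorem tww_eq (c : Ctx D) (G : S3) :
    c.tww G = c.twh (dD (j2 va) (dD (j2 va) G)) + 3 * c.tw0 (bD j2 G) := by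
  rw [Ctx.tww, Ctx.twh, Ctx.tw0, ww_eq c.tw G]

theorem ord0 [Fact c.tp] (t : T3 c) : Ord c.tw0 1 := by
  rw [tw0_eq]
  exact ord3 t (.inr rfl) (sc_aa fun x => (t.all x).grp)

theorem ordh [Fact c.tp] (t : T3 c) : Ord c.twh 0 := by
  rw [twh_eq]
  exact ord3 t (.inl rfl) (sc_gm fun x => (t.all x).grp)

theorem inv0 [Fact c.tp] (t : T3 c) : Inv c.tw0 := by
  rw [tw0_eq]
  exact inv_tX t.grp (.inr rfl)

end

end Vale.Agent.P352L.Fx
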